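import Vale.Agent.P092.H553.Ops

/-!
P092 (helper432), stage (S): amplifications.  The row model: `ℓ²(Γ × ι)` with left translations,
the algebra of operators commuting with them and its trace, and amplified frames.
-/

set_option linter.all false

open scoped InnerProductSpace
open Filter Topology ContinuousLinearMap

namespace Vale.Agent.P092.H432

open Vale.Agent.P092.H160 Vale.Agent.P092.H553

section row

variable {Γ ι : Type} [Group Γ]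

/-- left translation on `ℓ²(Γ × ι)` -/
noncomputable def lx (s : Γ) : Ell2 (Γ × ι) →L[ℂ] Ell2 (Γ × ι) :=
  rei ((Equiv.mulLeft s).prodCongr (Equiv.refl ι))

@[simp] theorem lx_apply (s : Γ) (ξ : Ell2 (Γ × ι)) (x : Γ × ι) :
    lx s ξ x = ξ (s⁻¹ * x.1, x.2) := rfl

/-- the vectors `ε_i = δ_(1,i)` -/
noncomputable def ep (i : ι) : Ell2 (Γ × ι) := dl (1, i)

theorem lx_dl (s h : Γ) (i : ι) : lx s (dl (h, i) : Ell2 (Γ × ι)) = dl (s * h, i) := by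
  rw [lx, rei_dl]; rfl

theorem lx_ep (s : Γ) (i : ι) : lx s (ep i : Ell2 (Γ × ι)) = dl (s, i) := by
  rw [ep, lx_dl, mul_one]

theorem dl_eq_lx (x : Γ × ι) : (dl x : Ell2 (Γ × ι)) = lx x.1 (ep x.2) := by
  rw [lx_ep]

theorem lx_mul (s t : Γ) : (lx (s * t) : Ell2 (Γ × ι) →L[ℂ] Ell2 (Γ × ι)) = lx s * lx t := by
  ext ξ x
  change ξ ((s * t)⁻¹ * x.1, x.2) = ξ (t⁻¹ * (s⁻¹ * x.1), x.2)
  rw [mul_inv_rev, mul_assoc]

theorem lx_one : (lx (1 : Γ) : Ell2 (Γ × ι) →L[ℂ] Ell2 (Γ × ι)) = 1 := by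
  ext ξ x
  change ξ ((1 : Γ)⁻¹ * x.1, x.2) = ξ x
  rw [inv_one, one_mul]

theorem norm_lx (s : Γ) (ξ : Ell2 (Γ × ι)) : ‖lx s ξ‖ = ‖ξ‖ := norm_rei _ _

theorem inner_lx (s : Γ) (ξ η : Ell2 (Γ × ι)) : ⟪lx s ξ, lx s η⟫_ℂ = ⟪ξ, η⟫_ℂ := inner_rei _ _ _

theorem adjoint_lx (s : Γ) :
    adjoint (lx s : Ell2 (Γ × ι) →L[ℂ] Ell2 (Γ × ι)) = lx s⁻¹ := by
  rw [lx, adjoint_rei]
  ext ξ x
  change ξ (s * x.1, x.2) = ξ (s⁻¹⁻¹ * x.1, x.2)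
  rw [inv_inv]

theorem inner_lx_left (s : Γ) (ξ η : Ell2 (Γ × ι)) : ⟪lx s ξ, η⟫_ℂ = ⟪ξ, lx s⁻¹ η⟫_ℂ := by
  rw [← adjoint_lx, adjoint_inner_right]

theorem inner_lx_right (s : Γ) (ξ η : Ell2 (Γ × ι)) : ⟪ξ, lx s η⟫_ℂ = ⟪lx s⁻¹ ξ, η⟫_ℂ := by
  rw [← adjoint_lx, adjoint_inner_left]

/-- left translations as a homomorphism -/
noncomputable def lxH (ι : Type) : Γ →* (Ell2 (Γ × ι) →L[ℂ] Ell2 (Γ × ι)) where
  toFun := lx
  map_one' := lx_one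
  map_mul' := lx_mul

@[simp] theorem lxH_apply (s : Γ) : lxH ι s = lx s := rfl

/-- The right algebra: operators commuting with all left translations. -/
def RA (T : Ell2 (Γ × ι) →L[ℂ] Ell2 (Γ × ι)) : Prop := Cmm (lxH ι) T

theorem RA.app {T : Ell2 (Γ × ι) →L[ℂ] Ell2 (Γ × ι)} (h : RA T) (s : Γ) (ξ : Ell2 (Γ × ι)) :
    T (lx s ξ) = lx s (T ξ) := Cmm.apply h s ξ

theorem ra_adjoint {T : Ell2 (Γ × ι) →L[ℂ] Ell2 (Γ × ι)} (h : RA T) : RA (adjoint T) := by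
  intro s
  have h1 := congrArg adjoint (h s⁻¹)
  rw [← star_eq_adjoint, ← star_eq_adjoint, star_mul, star_mul, star_eq_adjoint (lxH ι s⁻¹),
    lxH_apply, adjoint_lx, inv_inv, star_eq_adjoint] at h1
  exact h1.symm

theorem ra_ext {F : Type} [NormedAddCommGroup F] [InnerProductSpace ℂ F]
    {S T : Ell2 (Γ × ι) →L[ℂ] F} (h : ∀ s i, S (lx s (ep i)) = T (lx s (ep i))) : S = T := by
  apply op_ext
  intro x
  rw [dl_eq_lx]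
  exact h _ _

theorem RA.ext {S T : Ell2 (Γ × ι) →L[ℂ] Ell2 (Γ × ι)} (hS : RA S) (hT : RA T)
    (h : ∀ i, S (ep i) = T (ep i)) : S = T :=
  ra_ext fun s i => by rw [hS.app, hT.app, h]

theorem RA.coef {T : Ell2 (Γ × ι) →L[ℂ] Ell2 (Γ × ι)} (h : RA T) (g : Γ) (i j : ι) :
    (adjoint T (ep i) : Ell2 (Γ × ι)) (g, j) = (starRingEnd ℂ) ((T (ep j) : Ell2 (Γ × ι)) (g⁻¹, i)) := by
  rw [← inner_dl, adjoint_inner_right, dl_eq_lx, h.app, inner_lx_left, lx_ep, inner_dl_right]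

/-- multiplication by a function of the first coordinate -/
noncomputable def mp (ι : Type) (F : Γ → ℝ) : Ell2 (Γ × ι) →L[ℂ] Ell2 (Γ × ι) :=
  mo (fun x => F x.1)

theorem lx_mp {F : Γ → ℝ} {C : ℝ} (hF : ∀ g, |F g| ≤ C) (s : Γ) (ξ : Ell2 (Γ × ι)) :
    lx s (mp ι F ξ) = mp ι (fun g => F (s⁻¹ * g)) (lx s ξ) := by
  ext x
  rw [lx_apply, mp, mo_apply (F := fun x : Γ × ι => F x.1) (fun x => hF _), mp,
    mo_apply (F := fun x : Γ × ι => F (s⁻¹ * x.1)) (fun x => hF _), lx_apply]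

end row

/-- Amplified frame: a representation of `Λ` by unitaries of the corner `P RA P`, `P = R 1`, with
the trace of the regular representation (`R_v` = right multiplication by `V_v*`, `V_v` in
`p M_ι(L(Γ)) p`, `t = (Tr ⊗ τ)(p)`). -/
structure ARep {Γ Λ ι : Type} [Group Γ] [Group Λ] [Fintype ι] (t : ℝ)
    (R : Λ → (Ell2 (Γ × ι) →L[ℂ] Ell2 (Γ × ι))) : Prop where
  ra : ∀ v, RA (R v)
  mul : ∀ v w, R (v * w) = R v * R w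
  adj : ∀ v, adjoint (R v) = R v⁻¹
  pos : 0 < t
  tr_one : ∑ i, ⟪(ep i : Ell2 (Γ × ι)), R 1 (ep i)⟫_ℂ = t
  tr_zero : ∀ v, v ≠ 1 → ∑ i, ⟪(ep i : Ell2 (Γ × ι)), R v (ep i)⟫_ℂ = 0

/-- The representation generates the corner. -/
structure AFrame {Γ Λ ι : Type} [Group Γ] [Group Λ] [Fintype ι] (t : ℝ)
    (R : Λ → (Ell2 (Γ × ι) →L[ℂ] Ell2 (Γ × ι))) : Prop extends ARep t R where
  dense : ∀ T, RA T → R 1 * T * R 1 = T → ∀ ε : ℝ, 0 < ε → ∃ (s : Finset Λ) (c : Λ → ℂ),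
    ∑ i, ‖T (ep i) - ∑ v ∈ s, c v • R v (ep i)‖ ^ 2 ≤ ε ^ 2

/-- `lim_k R(z_k)* F_k R(z_k)`. -/
noncomputable def PiA {Γ Λ ι : Type} [Group Γ] [Group Λ] (U : Ultrafilter ℕ)
    (R : Λ → (Ell2 (Γ × ι) →L[ℂ] Ell2 (Γ × ι))) (z : ℕ → Λ) (F : ℕ → Γ → ℝ) :
    Ell2 (Γ × ι) →L[ℂ] Ell2 (Γ × ι) :=
  wl U (fun k => adjoint (R (z k)) * mp ι (F k) * R (z k))

/-- The functions `D_k` are asymptotically zero on the vectors `R(z_k) ξ`. -/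
def SmallA {Γ Λ ι : Type} [Group Γ] [Group Λ] (U : Ultrafilter ℕ)
    (R : Λ → (Ell2 (Γ × ι) →L[ℂ] Ell2 (Γ × ι))) (z : ℕ → Λ) (D : ℕ → Γ → ℝ) : Prop :=
  ∀ ξ : Ell2 (Γ × ι), Tendsto (fun k => ‖mp ι (D k) (R (z k) ξ)‖) U (𝓝 0)

end Vale.Agent.P092.H432
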