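import Vale.Agent.P092.H432.Gap
import Vale.Agent.P092.H538.S6
import Vale.Agent.P092.H967.S3
import Vale.Agent.P092.H967.Kaplansky

/-!
P092 (helper432), stage (S): every amplified representation `R` (of a group `Λ`, on `ℓ²(Γ × ι)`,
`Γ` countable) has an additive covariant family of positive operators `E(A)`, `A ⊆ Λ`, with
`E(Λ) = R 1` (`R` is contained in a multiple of the regular representation).
-/

set_option linter.all false

open scoped InnerProductSpace ComplexOrder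
open Filter Topology ContinuousLinearMap

namespace Vale.Agent.P092.H432

open Vale.Agent.P092.H160 Vale.Agent.P092.H553 Vale.Agent.P092.H538

/-! ### Regularisation of a positive operator -/

section reg

variable {H : Type} [NormedAddCommGroup H] [InnerProductSpace ℂ H] [CompleteSpace H]

/-- For `x ≥ 0` there is `c` in the commutant of the commutant of `x` with `c x c* = 1 - D`,
`D = (1 + x)⁻¹ = c* c`. -/
theorem exists_reg {x : H →L[ℂ] H} (hx : 0 ≤ x) : ∃ c D : H →L[ℂ] H,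
    (∀ y, y * x = x * y → y * c = c * y) ∧ c * x * star c = 1 - D ∧ star c * c = D ∧
      D + x * D = 1 ∧ D + D * x = 1 := by
  obtain ⟨a, ha, -⟩ := H108.exists_sqrt hx
  obtain ⟨u, hu⟩ := H967.isUnit_one_add a
  rw [ha] at hu
  obtain ⟨D, hD⟩ : ∃ D : H →L[ℂ] H, D = ((u⁻¹ : (H →L[ℂ] H)ˣ) : H →L[ℂ] H) := ⟨_, rfl⟩
  have h1 : (1 + x) * D = 1 := by rw [hD, ← hu]; exact u.mul_inv
  have h2 : D * (1 + x) = 1 := by rw [hD, ← hu]; exact u.inv_mul
  have hxs : star x = x := (IsSelfAdjoint.of_nonneg hx).star_eq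
  have hDc : ∀ y, y * x = x * y → y * D = D * y := by
    intro y hy
    have hyx : (1 + x) * y = y * (1 + x) := by rw [add_mul, one_mul, mul_add, mul_one, hy]
    calc y * D = D * (1 + x) * y * D := by rw [h2, one_mul]
      _ = D * (y * (1 + x)) * D := by rw [mul_assoc D, hyx]
      _ = D * y * ((1 + x) * D) := by simp only [mul_assoc]
      _ = D * y := by rw [h1, mul_one]
  have hDs : star D = D := by
    have h3 := congrArg star h1
    rw [star_mul, star_add, star_one, hxs] at h3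
    calc star D = star D * ((1 + x) * D) := by rw [h1, mul_one]
      _ = D := by rw [← mul_assoc, h3, one_mul]
  have hD0 : 0 ≤ D := by
    have h3 : D = star D * (1 + x) * D := by rw [mul_assoc, h1, mul_one, hDs]
    rw [h3]
    exact star_left_conjugate_nonneg (add_nonneg zero_le_one hx) D
  obtain ⟨c, hc, hc2⟩ := H108.exists_sqrt hD0
  have hcx : c * x = x * c := (hc2 x (hDc x rfl)).symm
  have hcD : D * c = c * D := hc2 D rfl
  have hnorm : c * star c = D := by
    have h3 : star c * D = D * star c := by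
      have := congrArg star hcD
      rw [star_mul, star_mul, hDs] at this
      exact this
    have h4 := hc2 (star c) h3
    rw [← h4, hc]
  refine ⟨c, D, fun y hy => hc2 y (hDc y hy), ?_, hc, ?_, ?_⟩
  · rw [hcx, mul_assoc, hnorm]
    rw [add_mul, one_mul] at h1
    rw [← h1]; abel
  · rw [add_mul, one_mul] at h1; exact h1
  · rw [mul_add, mul_one] at h2; exact h2

/-- If `T S = 0` and `T` vanishes on the kernel of the self-adjoint operator `S`, then `T = 0`. -/
theorem eq_zero_of_ker {S T : H →L[ℂ] H} (hS : star S = S) (h1 : T * S = 0)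
    (h2 : ∀ w, S w = 0 → T w = 0) : T = 0 := by
  have h3 : ∀ ζ, adjoint T ζ = 0 := by
    intro ζ
    have h4 : S (adjoint T ζ) = 0 := by
      have h5 := congrArg star h1
      rw [star_mul, hS, star_zero] at h5
      exact congrArg (fun A : H →L[ℂ] H => A ζ) h5
    have h6 := h2 _ h4
    have h7 : ⟪adjoint T ζ, adjoint T ζ⟫_ℂ = 0 := by
      rw [adjoint_inner_left, h6, inner_zero_right]
    exact inner_self_eq_zero.mp h7
  have h8 : adjoint T = 0 := by ext1 ζ; exact h3 ζ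
  rw [← adjoint_adjoint T, h8, map_zero]

end reg

section efam

variable {Γ Λ ι : Type} [Group Γ] [Group Λ] [Fintype ι] {t : ℝ}
  {R : Λ → (Ell2 (Γ × ι) →L[ℂ] Ell2 (Γ × ι))}

/-- the Bessel family `(u, x) ↦ √a_x R(u⁻¹) δ_x` -/
noncomputable def bf (R : Λ → (Ell2 (Γ × ι) →L[ℂ] Ell2 (Γ × ι))) (a : Γ × ι → ℝ)
    (p : Λ × (Γ × ι)) : Ell2 (Γ × ι) := ((Real.sqrt (a p.2) : ℝ) : ℂ) • R p.1⁻¹ (dl p.2)

theorem bes_one (hR : ARep t R) (x : Γ × ι) (s : Finset Λ) (ξ : Ell2 (Γ × ι)) :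
    ∑ u ∈ s, ‖⟪R u (dl x), ξ⟫_ℂ‖ ^ 2 ≤ t * ‖ξ‖ ^ 2 := by
  classical
  have h := H967.ar_bessel hR (fun i => if i = x.2 then lx x.1⁻¹ ξ else 0) s
  have e1 : ∀ v, ∑ i, ⟪R v (ep i : Ell2 (Γ × ι)), (if i = x.2 then lx x.1⁻¹ ξ else 0 :
      Ell2 (Γ × ι))⟫_ℂ = ⟪R v (dl x), ξ⟫_ℂ := by
    intro v
    rw [Finset.sum_eq_single x.2]
    · rw [if_pos rfl, ← inner_lx_left, ← (hR.ra v).app, lx_ep]
    · intro j _ hj
      rw [if_neg hj, inner_zero_right]
    · intro h; exact absurd (Finset.mem_univ _) h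
  have e2 : ∑ i, ‖(if i = x.2 then lx x.1⁻¹ ξ else 0 : Ell2 (Γ × ι))‖ ^ 2 = ‖ξ‖ ^ 2 := by
    rw [Finset.sum_eq_single x.2]
    · rw [if_pos rfl, norm_lx]
    · intro j _ hj
      rw [if_neg hj, norm_zero, zero_pow two_ne_zero]
    · intro h; exact absurd (Finset.mem_univ _) h
  simp only [e1, e2] at h
  exact h

theorem bes_bf (hR : ARep t R) {a : Γ × ι → ℝ} (ha : ∀ x, 0 ≤ a x)
    (hs : ∀ s : Finset (Γ × ι), (∑ x ∈ s, a x) * t ≤ 1) : Bes 1 (bf R a) := by
  classical
  intro s v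
  have h1 : s ⊆ (s.image Prod.fst) ×ˢ (s.image Prod.snd) := by
    intro p hp
    rw [Finset.mem_product]
    exact ⟨Finset.mem_image_of_mem _ hp, Finset.mem_image_of_mem _ hp⟩
  refine (Finset.sum_le_sum_of_subset_of_nonneg h1 fun _ _ _ => by positivity).trans ?_
  rw [Finset.sum_product_right]
  have h2 : ∀ x ∈ s.image Prod.snd, ∑ u ∈ s.image Prod.fst, ‖⟪bf R a (u, x), v⟫_ℂ‖ ^ 2 ≤
      a x * (t * ‖v‖ ^ 2) := by
    intro x _
    have h3 := bes_one hR x ((s.image Prod.fst).image fun u => u⁻¹) v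
    rw [Finset.sum_image (fun u _ u' _ h => inv_injective h)] at h3
    refine le_trans (le_of_eq ?_) (mul_le_mul_of_nonneg_left h3 (ha x))
    rw [Finset.mul_sum]
    refine Finset.sum_congr rfl fun u _ => ?_
    rw [bf, inner_smul_left, norm_mul, mul_pow, Complex.conj_ofReal, Complex.norm_real,
      Real.norm_eq_abs, sq_abs, Real.sq_sqrt (ha x)]
  refine (Finset.sum_le_sum h2).trans ?_
  rw [← Finset.sum_mul, ← mul_assoc, one_pow]
  have := hs (s.image Prod.snd)
  gcongr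

open Classical in
/-- indicator on the first coordinate -/
noncomputable def i1 {X : Type} (A : Set Λ) : Λ × X → ℝ := fun p => if p.1 ∈ A then 1 else 0

theorem abs_i1_le {X : Type} (A : Set Λ) (p : Λ × X) : |i1 A p| ≤ 1 := by
  unfold i1; split_ifs <;> simp

theorem i1_nonneg {X : Type} (A : Set Λ) (p : Λ × X) : 0 ≤ i1 A p := by
  unfold i1; split_ifs <;> simp

variable {a : Γ × ι → ℝ} (hB : Bes 1 (bf R a))

/-- `∑_{u ∈ A, x} |f(u,x)⟩⟨f(u,x)|` -/
noncomputable def E0 (A : Set Λ) : Ell2 (Γ × ι) →L[ℂ] Ell2 (Γ × ι) :=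
  adjoint (anOp hB) ∘L mo (i1 A) ∘L anOp hB

theorem inner_E0 (A : Set Λ) (ξ η : Ell2 (Γ × ι)) :
    ⟪ξ, E0 hB A η⟫_ℂ = ⟪anOp hB ξ, mo (i1 A) (anOp hB η)⟫_ℂ := by
  change ⟪ξ, adjoint (anOp hB) (mo (i1 A) (anOp hB η))⟫_ℂ = _
  rw [adjoint_inner_right]

theorem E0_add (A A' : Set Λ) (h : Disjoint A A') : E0 hB (A ∪ A') = E0 hB A + E0 hB A' := by
  classical
  refine op_ext_inner fun ξ η => ?_
  rw [add_apply, inner_add_right, inner_E0, inner_E0, inner_E0, ← inner_add_right,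
    ← mo_add (abs_i1_le A) (abs_i1_le A')]
  congr 3
  funext p
  unfold i1
  by_cases h1 : p.1 ∈ A
  · have h2 : p.1 ∉ A' := fun h2 => (Set.disjoint_left.mp h) h1 h2
    rw [if_pos (Set.mem_union_left A' h1), if_pos h1, if_neg h2, add_zero]
  · by_cases h2 : p.1 ∈ A'
    · rw [if_pos (Set.mem_union_right A h2), if_neg h1, if_pos h2, zero_add]
    · rw [if_neg (fun h3 => h3.elim h1 h2), if_neg h1, if_neg h2, add_zero]

theorem E0_star (A : Set Λ) : star (E0 hB A) = E0 hB A := by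
  rw [star_eq_adjoint, eq_comm, ContinuousLinearMap.eq_adjoint_iff]
  intro ξ η
  rw [inner_E0, ← inner_conj_symm, inner_E0, inner_conj_symm, inner_mo_left (abs_i1_le A)]

theorem E0_nonneg (A : Set Λ) : 0 ≤ E0 hB A := by
  refine H108.nonneg_of_inner (E0_star hB A) fun ζ => ?_
  rw [inner_E0, inner_mo (abs_i1_le A), Complex.ofReal_re]
  exact tsum_nonneg fun p => mul_nonneg (i1_nonneg A p) (by positivity)

theorem anOp_inv (hR : ARep t R) (v : Λ) (ξ : Ell2 (Γ × ι)) : anOp hB (R v⁻¹ ξ) =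
    rei ((Equiv.mulRight v).prodCongr (Equiv.refl (Γ × ι))) (anOp hB ξ) := by
  apply ext_inner_dl
  rintro ⟨u, x⟩
  rw [anOp_apply, rei_apply]
  have h1 : ((Equiv.mulRight v).prodCongr (Equiv.refl (Γ × ι))).symm (u, x) = (u * v⁻¹, x) := rfl
  rw [h1, anOp_apply, bf, bf, inner_smul_left, inner_smul_left]
  congr 1
  change ⟪R u⁻¹ (dl x), R v⁻¹ ξ⟫_ℂ = ⟪R (u * v⁻¹)⁻¹ (dl x), ξ⟫_ℂ
  rw [hR.inner_right, inv_inv, hR.app, mul_inv_rev, inv_inv]

theorem E0_cov (hR : ARep t R) (v : Λ) (A : Set Λ) :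
    R v * E0 hB A * R v⁻¹ = E0 hB {w | w * v ∈ A} := by
  refine op_ext_inner fun ξ η => ?_
  rw [mul_ap, mul_ap, hR.inner_right, inner_E0, inner_E0, anOp_inv hB hR, anOp_inv hB hR,
    ← inner_rei ((Equiv.mulRight v).prodCongr (Equiv.refl (Γ × ι))) (anOp hB ξ)]
  congr 1
  apply ext_inner_dl
  rintro ⟨u, x⟩
  rw [mo_apply (abs_i1_le A), rei_apply, rei_apply, mo_apply (abs_i1_le _)]
  congr 2
  have h1 : ((Equiv.mulRight v).prodCongr (Equiv.refl (Γ × ι))).symm (u, x) = (u * v⁻¹, x) := rfl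
  rw [h1]
  unfold i1
  have h2 : (u * v⁻¹ ∈ {w : Λ | w * v ∈ A}) ↔ u ∈ A := by
    change u * v⁻¹ * v ∈ A ↔ _
    rw [inv_mul_cancel_right]
  by_cases h : u ∈ A
  · rw [if_pos h, if_pos (h2.mpr h)]
  · rw [if_neg h, if_neg (fun h3 => h (h2.mp h3))]

theorem anOp_one (hR : ARep t R) (ξ : Ell2 (Γ × ι)) : anOp hB (R 1 ξ) = anOp hB ξ := by
  have h := anOp_inv hB hR 1 ξ
  rw [inv_one] at h
  rw [h]
  apply ext_inner_dl
  rintro ⟨u, x⟩
  rw [rei_apply]
  have h1 : ((Equiv.mulRight (1 : Λ)).prodCongr (Equiv.refl (Γ × ι))).symm (u, x) = (u * 1⁻¹, x) :=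
    rfl
  rw [h1, inv_one, mul_one]

theorem E0_mul_one (hR : ARep t R) (A : Set Λ) : E0 hB A * R 1 = E0 hB A := by
  refine op_ext_inner fun ξ η => ?_
  rw [mul_ap, inner_E0, inner_E0, anOp_one hB hR]

theorem E0_comm (hR : ARep t R) (v : Λ) :
    R v * E0 hB Set.univ = E0 hB Set.univ * R v := by
  have h := E0_cov hB hR v Set.univ
  have h1 : {w : Λ | w * v ∈ (Set.univ : Set Λ)} = Set.univ := by
    ext w; simp
  rw [h1] at h
  have h2 := congrArg (fun T => T * R v) h
  simp only [mul_assoc] at h2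
  rw [hR.inv_mul, E0_mul_one hB hR] at h2
  exact h2

/-- the kernel of `E0 univ` is the kernel of `R 1` -/
theorem E0_ker (hR : ARep t R) (ha : ∀ x, 0 < a x) {w : Ell2 (Γ × ι)}
    (hw : E0 hB Set.univ w = 0) : R 1 w = 0 := by
  have h1 : anOp hB w = 0 := by
    have h2 : ⟪w, E0 hB Set.univ w⟫_ℂ = 0 := by rw [hw, inner_zero_right]
    rw [inner_E0] at h2
    have h3 : mo (i1 (Set.univ : Set Λ)) (anOp hB w) = anOp hB w := by
      have : (i1 (Set.univ : Set Λ) : Λ × (Γ × ι) → ℝ) = fun _ => 1 := by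
        funext p; unfold i1; rw [if_pos (Set.mem_univ _)]
      rw [this, mo_one]
    rw [h3] at h2
    exact inner_self_eq_zero.mp h2
  refine eq_zero_of_inner_dl fun x => ?_
  have h2 : anOp hB w (1, x) = 0 := by rw [h1]; rfl
  rw [anOp_apply, bf, inner_smul_left, mul_eq_zero] at h2
  rcases h2 with h2 | h2
  · exfalso
    rw [Complex.conj_ofReal, Complex.ofReal_eq_zero, Real.sqrt_eq_zero (ha _).le] at h2
    exact (ha _).ne' h2
  · change ⟪R (1 : Λ)⁻¹ (dl x), w⟫_ℂ = 0 at h2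
    rw [hR.inner_left, inv_inv, inner_dl] at h2
    exact h2

end efam

/-- Every amplified representation has an additive covariant family. -/
theorem exists_efam {Γ Λ ι : Type} [Group Γ] [Group Λ] [Fintype ι] [Countable Γ] {t : ℝ}
    {R : Λ → (Ell2 (Γ × ι) →L[ℂ] Ell2 (Γ × ι))} (hR : ARep t R) :
    ∃ E : Set Λ → (Ell2 (Γ × ι) →L[ℂ] Ell2 (Γ × ι)), EFam R E := by
  have ht := hR.pos
  obtain ⟨_⟩ := nonempty_encodable (Γ × ι)
  obtain ⟨a, ha, c0, hc0, hc1⟩ := posSumOfEncodable (ε := t⁻¹) (by positivity) (Γ × ι)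
  have hB : Bes 1 (bf R a) := by
    refine bes_bf hR (fun x => (ha x).le) fun s => ?_
    have h1 : ∑ x ∈ s, a x ≤ t⁻¹ := (sum_le_hasSum s (fun x _ => (ha x).le) hc0).trans hc1
    calc (∑ x ∈ s, a x) * t ≤ t⁻¹ * t := by gcongr
      _ = 1 := inv_mul_cancel₀ ht.ne'
  obtain ⟨S, hS⟩ : ∃ S, S = E0 hB Set.univ := ⟨_, rfl⟩
  have hS0 : 0 ≤ S := by rw [hS]; exact E0_nonneg hB _
  have hSs : star S = S := (IsSelfAdjoint.of_nonneg hS0).star_eq
  -- the regularisations
  have hk : ∀ k : ℕ, 0 ≤ ((k : ℝ) + 1 : ℂ) • S := by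
    intro k
    refine H108.nonneg_of_inner ?_ fun ζ => ?_
    · rw [IsSelfAdjoint, star_smul, hSs]
      congr 1
      simp
    · rw [smul_apply, inner_smul_right]
      have h1 := H108.inner_nonneg_of_nonneg hS0 ζ
      have h2 : ((k : ℝ) + 1 : ℂ) = (((k : ℝ) + 1 : ℝ) : ℂ) := by push_cast; rfl
      rw [h2, Complex.re_ofReal_mul]
      positivity
  choose c D hcomm hcx hcc hD1 hD2 using fun k => exists_reg (hk k)
  have hcR : ∀ k v, R v * c k = c k * R v := by
    intro k v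
    refine hcomm k _ ?_
    rw [mul_smul_comm, smul_mul_assoc, hS, E0_comm hB hR]
  have hcR' : ∀ k v, R v * star (c k) = star (c k) * R v := by
    intro k v
    have h1 := congrArg star (hcR k v⁻¹)
    rw [star_mul, star_mul, star_eq_adjoint (R v⁻¹), hR.adj, inv_inv] at h1
    exact h1.symm
  -- the approximating families
  obtain ⟨Ek, hEk⟩ : ∃ Ek : ℕ → Set Λ → (Ell2 (Γ × ι) →L[ℂ] Ell2 (Γ × ι)),
      Ek = fun k A => c k * (((k : ℝ) + 1 : ℂ) • E0 hB A) * star (c k) := ⟨_, rfl⟩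
  have hEk0 : ∀ k A, 0 ≤ Ek k A := by
    intro k A
    have h1 : 0 ≤ ((k : ℝ) + 1 : ℂ) • E0 hB A := by
      refine H108.nonneg_of_inner ?_ fun ζ => ?_
      · rw [IsSelfAdjoint, star_smul, E0_star]
        congr 1
        simp
      · rw [smul_apply, inner_smul_right]
        have h1 := H108.inner_nonneg_of_nonneg (E0_nonneg hB A) ζ
        have h2 : ((k : ℝ) + 1 : ℂ) = (((k : ℝ) + 1 : ℝ) : ℂ) := by push_cast; rfl
        rw [h2, Complex.re_ofReal_mul]
        positivity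
    rw [hEk]
    exact star_right_conjugate_nonneg h1 (c k)
  have hEk_add : ∀ k A A', Disjoint A A' → Ek k (A ∪ A') = Ek k A + Ek k A' := by
    intro k A A' h
    rw [hEk]
    simp only
    rw [E0_add hB A A' h, smul_add, mul_add, add_mul]
  have hEk_univ : ∀ k, Ek k Set.univ = 1 - D k := by
    intro k
    rw [hEk]
    simp only
    rw [← hS, hcx k]
  have hEk_le : ∀ k A, Ek k A ≤ 1 := by
    intro k A
    have h1 := hEk_add k A Aᶜ disjoint_compl_right
    rw [Set.union_compl_self, hEk_univ] at h1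
    have h2 : 0 ≤ D k := by rw [← hcc k]; exact star_mul_self_nonneg _
    have h3 : Ek k A = 1 - D k - Ek k Aᶜ := by rw [h1]; abel
    rw [h3, sub_sub, sub_le_self_iff]
    exact add_nonneg h2 (hEk0 k Aᶜ)
  have hEk_norm : ∀ k A, ‖Ek k A‖ ≤ 1 := fun k A => H108.norm_le_of (hEk0 k A) (hEk_le k A)
  have hEk_cov : ∀ k v A, R v * Ek k A * R v⁻¹ = Ek k {w | w * v ∈ A} := by
    intro k v A
    rw [hEk]
    simp only
    have e1 : ∀ X : Ell2 (Γ × ι) →L[ℂ] Ell2 (Γ × ι),
        R v * (c k * X * star (c k)) * R v⁻¹ = c k * (R v * X * R v⁻¹) * star (c k) := by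
      intro X
      calc R v * (c k * X * star (c k)) * R v⁻¹
          = (R v * c k) * X * (star (c k) * R v⁻¹) := by simp only [mul_assoc]
        _ = (c k * R v) * X * (R v⁻¹ * star (c k)) := by rw [hcR k v, ← hcR' k v⁻¹]
        _ = _ := by simp only [mul_assoc]
    rw [e1, mul_smul_comm, smul_mul_assoc, E0_cov hB hR v A]
  -- the limits
  obtain ⟨U, hU⟩ : ∃ U : Ultrafilter ℕ, (U : Filter ℕ) ≤ atTop :=
    ⟨Ultrafilter.of atTop, Ultrafilter.of_le _⟩
  obtain ⟨E, hE⟩ : ∃ E : Set Λ → (Ell2 (Γ × ι) →L[ℂ] Ell2 (Γ × ι)),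
      E = fun A => wl U (fun k => Ek k A) := ⟨_, rfl⟩
  have hspec : ∀ A (ξ η : Ell2 (Γ × ι)), Tendsto (fun k => ⟪ξ, Ek k A η⟫_ℂ) U
      (𝓝 ⟪ξ, E A η⟫_ℂ) := by
    intro A ξ η
    rw [hE]
    exact wl_spec U (fun k => hEk_norm k A) ξ η
  refine ⟨E, ?_, ?_, ?_, ?_⟩
  · intro A
    exact H108.nonneg_of_tendsto (l := (U : Filter ℕ)) (T := fun k => Ek k A)
      (Eventually.of_forall fun k => hEk0 k A) (hspec A)
  · intro A A' h
    refine op_ext_inner fun ξ η => ?_
    rw [add_apply, inner_add_right]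
    refine tendsto_nhds_unique (hspec _ ξ η) (((hspec A ξ η).add (hspec A' ξ η)).congr fun k => ?_)
    rw [hEk_add k A A' h, add_apply, inner_add_right]
  · -- `E univ = R 1`
    have hSR : S * R 1 = S := by rw [hS]; exact E0_mul_one hB hR _
    have hRS : R 1 * S = S := by
      have h1 := congrArg star hSR
      rw [star_mul, hSs, star_eq_adjoint, hR.adj, inv_one] at h1
      exact h1
    have key : E Set.univ - R 1 = 0 := by
      refine eq_zero_of_ker hSs ?_ ?_
      · rw [sub_mul, hRS, sub_eq_zero]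
        refine op_ext_inner fun ξ η => ?_
        rw [mul_ap]
        refine tendsto_nhds_unique (hspec _ ξ (S η)) ?_
        have h1 : Tendsto (fun k : ℕ => ‖ξ‖ * (((k : ℝ) + 1)⁻¹ * ‖η‖)) U (𝓝 0) := by
          have h2 : Tendsto (fun k : ℕ => ((k : ℝ) + 1)⁻¹) atTop (𝓝 0) := by
            have := tendsto_one_div_add_atTop_nhds_zero_nat (𝕜 := ℝ)
            simpa [one_div] using this
          have h3 := ((h2.mono_left hU).mul_const ‖η‖).const_mul ‖ξ‖
          simpa using h3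
        rw [tendsto_iff_norm_sub_tendsto_zero]
        refine squeeze_zero (fun k => norm_nonneg _) (fun k => ?_) h1
        have e1 : Ek k Set.univ (S η) - S η = -(D k (S η)) := by
          rw [hEk_univ, sub_apply, one_apply_eq_self]; abel
        have e2 : D k (S η) = (((k : ℝ) + 1 : ℂ))⁻¹ • (Ek k Set.univ η) := by
          have h2 : D k * S = (((k : ℝ) + 1 : ℂ))⁻¹ • (1 - D k) := by
            have h3 := hD2 k
            rw [mul_smul_comm] at h3
            have h4 : 1 - D k = ((k : ℝ) + 1 : ℂ) • (D k * S) := by rw [← h3]; abel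
            rw [h4, smul_smul, inv_mul_cancel₀, one_smul]
            have : ((k : ℝ) + 1 : ℂ) = (((k : ℝ) + 1 : ℝ) : ℂ) := by push_cast; rfl
            rw [this, Ne, Complex.ofReal_eq_zero]
            positivity
          have h5 := congrArg (fun T : Ell2 (Γ × ι) →L[ℂ] Ell2 (Γ × ι) => T η) h2
          rw [hEk_univ]
          exact h5
        rw [← inner_sub_right, e1, inner_neg_right, norm_neg]
        refine (norm_inner_le_norm _ _).trans ?_
        rw [e2, norm_smul]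
        have h6 : ‖(((k : ℝ) + 1 : ℂ))⁻¹‖ = ((k : ℝ) + 1)⁻¹ := by
          have : ((k : ℝ) + 1 : ℂ) = (((k : ℝ) + 1 : ℝ) : ℂ) := by push_cast; rfl
          rw [norm_inv, this, Complex.norm_real, Real.norm_of_nonneg (by positivity)]
        rw [h6]
        have h7 : ‖Ek k Set.univ η‖ ≤ ‖η‖ := by
          refine ((Ek k Set.univ).le_opNorm η).trans ?_
          have := hEk_norm k Set.univ
          calc _ ≤ 1 * ‖η‖ := by gcongr
            _ = _ := one_mul _
        gcongr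
      · intro w hw
        have hw1 : R 1 w = 0 := E0_ker hB hR ha (by rw [← hS]; exact hw)
        rw [sub_apply, hw1, sub_zero]
        refine ext_inner_left ℂ fun ξ => ?_
        rw [inner_zero_right]
        refine tendsto_nhds_unique (hspec _ ξ w) (tendsto_const_nhds.congr fun k => ?_)
        have h3 : D k w = w := by
          have h4 := congrArg (fun T : Ell2 (Γ × ι) →L[ℂ] Ell2 (Γ × ι) => T w) (hD2 k)
          simp only [add_apply, mul_smul_comm, smul_apply, one_apply_eq_self] at h4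
          rw [mul_ap, hw, map_zero, smul_zero, add_zero] at h4
          exact h4
        rw [hEk_univ, sub_apply, one_apply_eq_self, h3, sub_self, inner_zero_right]
    exact sub_eq_zero.mp key
  · intro v A
    refine op_ext_inner fun ξ η => ?_
    rw [mul_ap, mul_ap, hR.inner_right]
    refine tendsto_nhds_unique (hspec A (R v⁻¹ ξ) (R v⁻¹ η))
      ((hspec {w | w * v ∈ A} ξ η).congr fun k => ?_)
    rw [← hEk_cov k v A, mul_ap, mul_ap, hR.inner_right]

end Vale.Agent.P092.H432
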