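import Vale.Agent.P092.H432.Trace

/-!
P092 (helper432), stage (S), block [S2]: the maps `F ↦ lim_k R(z_k)* F_k R(z_k)` in the row model.
-/

set_option linter.all false

open scoped InnerProductSpace
open Filter Topology ContinuousLinearMap

namespace Vale.Agent.P092.H432

open Vale.Agent.P092.H160 Vale.Agent.P092.H553

/-! ### Basic facts on amplified frames -/

section arep

variable {Γ Λ ι : Type} [Group Γ] [Group Λ] [Fintype ι] {t : ℝ}
  {R : Λ → (Ell2 (Γ × ι) →L[ℂ] Ell2 (Γ × ι))}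

theorem ARep.adj_one (h : ARep t R) : adjoint (R 1) = R 1 := by rw [h.adj, inv_one]

theorem ARep.one_mul_one (h : ARep t R) : R 1 * R 1 = R 1 := by rw [← h.mul, mul_one]

theorem ARep.one_mul (h : ARep t R) (v : Λ) : R 1 * R v = R v := by rw [← h.mul, _root_.one_mul]

theorem ARep.mul_one (h : ARep t R) (v : Λ) : R v * R 1 = R v := by rw [← h.mul, _root_.mul_one]

theorem ARep.inv_mul (h : ARep t R) (v : Λ) : R v⁻¹ * R v = R 1 := by
  rw [← h.mul, inv_mul_cancel]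

theorem ARep.mul_inv (h : ARep t R) (v : Λ) : R v * R v⁻¹ = R 1 := by
  rw [← h.mul, mul_inv_cancel]

theorem ARep.app (h : ARep t R) (v w : Λ) (ξ : Ell2 (Γ × ι)) : R v (R w ξ) = R (v * w) ξ := by
  rw [h.mul]; rfl

theorem ARep.lx (h : ARep t R) (v : Λ) (s : Γ) (ξ : Ell2 (Γ × ι)) :
    R v (lx s ξ) = H432.lx s (R v ξ) := (h.ra v).app s ξ

theorem ARep.inner_left (h : ARep t R) (v : Λ) (ξ η : Ell2 (Γ × ι)) :
    ⟪R v ξ, η⟫_ℂ = ⟪ξ, R v⁻¹ η⟫_ℂ := by rw [← h.adj, adjoint_inner_right]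

theorem ARep.inner_right (h : ARep t R) (v : Λ) (ξ η : Ell2 (Γ × ι)) :
    ⟪ξ, R v η⟫_ℂ = ⟪R v⁻¹ ξ, η⟫_ℂ := by rw [← h.adj, adjoint_inner_left]

theorem ARep.inner_map (h : ARep t R) (v : Λ) (ξ η : Ell2 (Γ × ι)) :
    ⟪R v ξ, R v η⟫_ℂ = ⟪R 1 ξ, R 1 η⟫_ℂ := by
  rw [h.inner_left, h.app, inv_mul_cancel, h.inner_left, inv_one, h.app, _root_.mul_one]

theorem ARep.norm_map (h : ARep t R) (v : Λ) (ξ : Ell2 (Γ × ι)) : ‖R v ξ‖ = ‖R 1 ξ‖ := by
  have h1 := h.inner_map v ξ ξ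
  rw [inner_self_eq_norm_sq_to_K, inner_self_eq_norm_sq_to_K] at h1
  have h2 : ‖R v ξ‖ ^ 2 = ‖R 1 ξ‖ ^ 2 := by exact_mod_cast h1
  exact (pow_left_inj₀ (norm_nonneg _) (norm_nonneg _) two_ne_zero).mp h2

theorem ARep.norm_one_le (h : ARep t R) (ξ : Ell2 (Γ × ι)) : ‖R 1 ξ‖ ≤ ‖ξ‖ := by
  have h1 : ‖R 1 ξ‖ ^ 2 ≤ ‖R 1 ξ‖ * ‖ξ‖ := by
    have h2 : ⟪R 1 ξ, R 1 ξ⟫_ℂ = ⟪R 1 ξ, ξ⟫_ℂ := by
      rw [h.inner_right, inv_one, h.app, _root_.mul_one]
    have h3 : ((‖R 1 ξ‖ ^ 2 : ℝ) : ℂ) = ⟪R 1 ξ, ξ⟫_ℂ := by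
      rw [← h2, inner_self_eq_norm_sq_to_K]; norm_cast
    have h4 : ‖((‖R 1 ξ‖ ^ 2 : ℝ) : ℂ)‖ ≤ ‖R 1 ξ‖ * ‖ξ‖ := by
      rw [h3]; exact norm_inner_le_norm _ _
    rwa [Complex.norm_real, Real.norm_of_nonneg (by positivity)] at h4
  rcases (norm_nonneg (R 1 ξ)).eq_or_lt with h0 | h0
  · rw [← h0]; exact norm_nonneg _
  · nlinarith

theorem ARep.norm_le (h : ARep t R) (v : Λ) (ξ : Ell2 (Γ × ι)) : ‖R v ξ‖ ≤ ‖ξ‖ :=
  (h.norm_map v ξ).le.trans (h.norm_one_le ξ)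

theorem ARep.opNorm_le (h : ARep t R) (v : Λ) : ‖R v‖ ≤ 1 :=
  ContinuousLinearMap.opNorm_le_bound _ zero_le_one fun ξ => by
    rw [_root_.one_mul]; exact h.norm_le v ξ

/-- Orthogonality in trace. -/
theorem ARep.tr_eq [DecidableEq Λ] (h : ARep t R) (v : Λ) :
    trA (R v) = if v = 1 then (t : ℂ) else 0 := by
  split_ifs with hv
  · rw [hv]; exact h.tr_one
  · exact h.tr_zero v hv

end arep

/-! ### Weak limits -/

section pia

variable {Γ Λ ι : Type} [Group Γ] [Group Λ] [Fintype ι] {t : ℝ}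
  {R : Λ → (Ell2 (Γ × ι) →L[ℂ] Ell2 (Γ × ι))}
  {U : Ultrafilter ℕ} {z : ℕ → Λ} {F F' D : ℕ → Γ → ℝ} {C C' : ℝ}

theorem mp_bdd {ι : Type} {F : Γ → ℝ} (hF : ∀ g, |F g| ≤ C) : ∀ x : Γ × ι, |F x.1| ≤ C :=
  fun x => hF _

theorem norm_mp_le {F : Γ → ℝ} (hF : ∀ g, |F g| ≤ C) (ξ : Ell2 (Γ × ι)) :
    ‖mp ι F ξ‖ ≤ C * ‖ξ‖ := norm_mo_le (mp_bdd hF) ξ

theorem inner_mp_left {F : Γ → ℝ} (hF : ∀ g, |F g| ≤ C) (ξ η : Ell2 (Γ × ι)) :
    ⟪mp ι F ξ, η⟫_ℂ = ⟪ξ, mp ι F η⟫_ℂ := inner_mo_left (mp_bdd hF) ξ η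

variable (hR : ARep t R)

include hR

theorem pa_bdd (hF : ∀ k g, |F k g| ≤ C) (k : ℕ) :
    ‖adjoint (R (z k)) * mp ι (F k) * R (z k)‖ ≤ C := by
  have hC : 0 ≤ C := (abs_nonneg _).trans (hF 0 1)
  refine ContinuousLinearMap.opNorm_le_bound _ hC fun ξ => ?_
  rw [mul_ap, mul_ap, hR.adj]
  refine (hR.norm_le _ _).trans ((norm_mp_le (hF k) _).trans ?_)
  have := hR.norm_le (z k) ξ
  gcongr

theorem pa_spec (hF : ∀ k g, |F k g| ≤ C) (ξ η : Ell2 (Γ × ι)) :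
    Tendsto (fun k => ⟪R (z k) ξ, mp ι (F k) (R (z k) η)⟫_ℂ) U
      (𝓝 ⟪ξ, PiA U R z F η⟫_ℂ) := by
  refine (wl_spec U (pa_bdd hR hF) ξ η).congr fun k => ?_
  rw [mul_ap, mul_ap, adjoint_inner_right]

theorem pa_norm_le (hF : ∀ k g, |F k g| ≤ C) (ξ η : Ell2 (Γ × ι)) :
    ‖⟪ξ, PiA U R z F η⟫_ℂ‖ ≤ C * ‖ξ‖ * ‖η‖ := by
  refine le_of_tendsto (pa_spec hR hF ξ η).norm (Eventually.of_forall fun k => ?_)
  refine (norm_inner_le_norm _ _).trans ?_
  have hC : 0 ≤ C := (abs_nonneg _).trans (hF 0 1)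
  have h1 := norm_mp_le (hF k) (R (z k) η)
  have h2 := hR.norm_le (z k) η
  have h3 := hR.norm_le (z k) ξ
  calc ‖R (z k) ξ‖ * ‖mp ι (F k) (R (z k) η)‖ ≤ ‖ξ‖ * (C * ‖η‖) := by
        refine mul_le_mul h3 (h1.trans ?_) (norm_nonneg _) (norm_nonneg _)
        gcongr
    _ = C * ‖ξ‖ * ‖η‖ := by ring

theorem pa_sym (hF : ∀ k g, |F k g| ≤ C) (ξ η : Ell2 (Γ × ι)) :
    ⟪PiA U R z F ξ, η⟫_ℂ = ⟪ξ, PiA U R z F η⟫_ℂ := by
  refine tendsto_nhds_unique ?_ (pa_spec hR hF ξ η)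
  have h1 := (Complex.continuous_conj.tendsto _).comp (pa_spec (z := z) (U := U) hR hF η ξ)
  rw [inner_conj_symm] at h1
  refine h1.congr fun k => ?_
  rw [Function.comp_apply, inner_conj_symm, inner_mp_left (hF k)]

theorem pa_adjoint (hF : ∀ k g, |F k g| ≤ C) : adjoint (PiA U R z F) = PiA U R z F := by
  rw [eq_comm, ContinuousLinearMap.eq_adjoint_iff]
  exact pa_sym hR hF

theorem pa_nonneg (hF : ∀ k g, |F k g| ≤ C) (h0 : ∀ k g, 0 ≤ F k g) : 0 ≤ PiA U R z F := by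
  refine H108.nonneg_of_inner ?_ fun ζ => ?_
  · rw [IsSelfAdjoint, star_eq_adjoint]
    exact pa_adjoint hR hF
  · refine ge_of_tendsto ((Complex.continuous_re.tendsto _).comp (pa_spec hR hF ζ ζ))
      (Eventually.of_forall fun k => ?_)
    rw [Function.comp_apply, mp, inner_mo (mp_bdd (hF k)), Complex.ofReal_re]
    exact tsum_nonneg fun g => mul_nonneg (h0 k _) (by positivity)

theorem pa_congr (hF : ∀ k g, |F k g| ≤ C) (hF' : ∀ k g, |F' k g| ≤ C')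
    (h : SmallA U R z (fun k g => F k g - F' k g)) : PiA U R z F = PiA U R z F' := by
  refine op_ext_inner fun ξ η => ?_
  refine tendsto_nhds_unique (pa_spec hR hF ξ η) ?_
  have h1 : Tendsto (fun k => ⟪R (z k) ξ, mp ι (fun g => F k g - F' k g) (R (z k) η)⟫_ℂ) U
      (𝓝 0) := by
    rw [tendsto_zero_iff_norm_tendsto_zero]
    have h2 := (h η).const_mul ‖ξ‖
    rw [mul_zero] at h2
    refine squeeze_zero (fun k => norm_nonneg _) (fun k => ?_) h2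
    refine (norm_inner_le_norm _ _).trans ?_
    have := hR.norm_le (z k) ξ
    gcongr
  have h3 := h1.add (pa_spec (z := z) (U := U) hR hF' ξ η)
  rw [zero_add] at h3
  refine h3.congr fun k => ?_
  rw [mp, mo_sub (mp_bdd (hF k)) (mp_bdd (hF' k)), ← mp, ← mp, ← inner_add_right, sub_add_cancel]

theorem pa_add (hF : ∀ k g, |F k g| ≤ C) (hF' : ∀ k g, |F' k g| ≤ C') :
    PiA U R z (fun k g => F k g + F' k g) = PiA U R z F + PiA U R z F' := by
  refine op_ext_inner fun ξ η => ?_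
  have h : ∀ k g, |F k g + F' k g| ≤ C + C' := fun k g =>
    (abs_add_le _ _).trans (add_le_add (hF k g) (hF' k g))
  refine tendsto_nhds_unique (pa_spec hR h ξ η) ?_
  rw [add_apply, inner_add_right]
  refine ((pa_spec hR hF ξ η).add (pa_spec hR hF' ξ η)).congr fun k => ?_
  rw [mp, mp, mp, mo_add (mp_bdd (hF k)) (mp_bdd (hF' k)), inner_add_right]

theorem pa_smul (c : ℝ) (hF : ∀ k g, |F k g| ≤ C) :
    PiA U R z (fun k g => c * F k g) = (c : ℂ) • PiA U R z F := by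
  refine op_ext_inner fun ξ η => ?_
  have h : ∀ k g, |c * F k g| ≤ |c| * C := fun k g => by
    rw [abs_mul]
    have := hF k g
    gcongr
  refine tendsto_nhds_unique (pa_spec hR h ξ η) ?_
  rw [smul_apply, inner_smul_right]
  refine ((pa_spec hR hF ξ η).const_mul (c : ℂ)).congr fun k => ?_
  rw [mp, mp, mo_smul c (mp_bdd (hF k)), inner_smul_right]

theorem pa_mono (hF : ∀ k g, |F k g| ≤ C) (hF' : ∀ k g, |F' k g| ≤ C')
    (h : ∀ k g, F k g ≤ F' k g) (ξ : Ell2 (Γ × ι)) :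
    (⟪ξ, PiA U R z F ξ⟫_ℂ).re ≤ (⟪ξ, PiA U R z F' ξ⟫_ℂ).re := by
  refine le_of_tendsto_of_tendsto ((Complex.continuous_re.tendsto _).comp (pa_spec hR hF ξ ξ))
    ((Complex.continuous_re.tendsto _).comp (pa_spec hR hF' ξ ξ)) (Eventually.of_forall fun k => ?_)
  exact inner_mo_re_mono (mp_bdd (hF k)) (mp_bdd (hF' k)) (fun x => h k x.1) _

theorem pa_one : PiA U R z (fun _ _ => (1 : ℝ)) = R 1 := by
  refine op_ext_inner fun ξ η => ?_
  refine tendsto_nhds_unique (pa_spec hR (C := 1) (fun k g => by simp) ξ η) ?_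
  have h1 : ∀ k, ⟪R (z k) ξ, mp ι (fun _ => (1 : ℝ)) (R (z k) η)⟫_ℂ = ⟪ξ, R 1 η⟫_ℂ := by
    intro k
    rw [mp, mo_one, hR.inner_left, hR.app, inv_mul_cancel]
  simp only [h1]
  exact tendsto_const_nhds

/-- `Π = Π P`. -/
theorem pa_mul_one (hF : ∀ k g, |F k g| ≤ C) : PiA U R z F * R 1 = PiA U R z F := by
  refine op_ext_inner fun ξ η => ?_
  rw [mul_ap]
  refine tendsto_nhds_unique (pa_spec hR hF ξ (R 1 η)) ((pa_spec hR hF ξ η).congr fun k => ?_)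
  rw [hR.app, mul_one]

/-- `Π = P Π`. -/
theorem pa_one_mul (hF : ∀ k g, |F k g| ≤ C) : R 1 * PiA U R z F = PiA U R z F := by
  refine op_ext_inner fun ξ η => ?_
  rw [mul_ap, hR.inner_right, inv_one]
  refine tendsto_nhds_unique (pa_spec hR hF (R 1 ξ) η) ((pa_spec hR hF ξ η).congr fun k => ?_)
  rw [hR.app, mul_one]

/-- Left covariance. -/
theorem pa_lx (hF : ∀ k g, |F k g| ≤ C) (hF' : ∀ k g, |F' k g| ≤ C') (s : Γ)
    (h : SmallA U R z (fun k g => F k (s⁻¹ * g) - F' k g)) (ξ : Ell2 (Γ × ι)) :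
    lx s (PiA U R z F ξ) = PiA U R z F' (lx s ξ) := by
  rw [← pa_congr hR (F := fun k g => F k (s⁻¹ * g)) (fun k g => hF k _) hF' h]
  refine ext_inner_left ℂ fun η => ?_
  refine tendsto_nhds_unique ?_
    (pa_spec hR (F := fun k g => F k (s⁻¹ * g)) (fun k g => hF k _) η (lx s ξ))
  rw [inner_lx_right]
  refine (pa_spec hR hF (lx s⁻¹ η) ξ).congr fun k => ?_
  rw [hR.lx, hR.lx, ← lx_mp (hF k), inner_lx_right]

/-- `Π` lies in the right algebra. -/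
theorem pa_ra (hF : ∀ k g, |F k g| ≤ C)
    (h : ∀ s : Γ, SmallA U R z (fun k g => F k (s * g) - F k g)) : RA (PiA U R z F) := by
  intro s
  ext1 ξ
  rw [mul_ap, mul_ap, lxH_apply]
  exact (pa_lx hR hF hF s (h s⁻¹) ξ).symm

omit hR in
theorem two_norm_lx {T : Ell2 (Γ × ι) →L[ℂ] Ell2 (Γ × ι)} (hT : RA T) (s : Γ) (i : ι) :
    ‖T (lx s (ep i))‖ ≤ Real.sqrt (nn T) := by
  rw [hT.app, norm_lx]
  exact norm_le_nn T i

omit hR in
/-- vectors `R(z_k) ξ` for `ξ` in the dense set of basis vectors suffice -/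
theorem tendsto_of_basis {f : ℕ → (Ell2 (Γ × ι) →L[ℂ] Ell2 (Γ × ι))} {B : ℝ}
    (hf : ∀ k, ‖f k‖ ≤ B) (h : ∀ x y : Γ × ι, Tendsto (fun k => ⟪(dl x : Ell2 (Γ × ι)), f k (dl y)⟫_ℂ) U (𝓝 0))
    (ξ η : Ell2 (Γ × ι)) : Tendsto (fun k => ⟪ξ, f k η⟫_ℂ) U (𝓝 0) := by
  have hB : 0 ≤ B := (norm_nonneg _).trans (hf 0)
  -- first in `η`
  have key : ∀ (g : ℕ → Ell2 (Γ × ι) →L[ℂ] ℂ) (D : ℝ), (∀ k, ‖g k‖ ≤ D) →
      (∀ y, Tendsto (fun k => g k (dl y)) U (𝓝 0)) → ∀ η, Tendsto (fun k => g k η) U (𝓝 0) := by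
    intro g D hg hy η
    have hD : 0 ≤ D := (norm_nonneg _).trans (hg 0)
    rw [Metric.tendsto_nhds]
    intro ε hε
    obtain ⟨s, hs⟩ := ((hasSum_dl η).eventually (Metric.ball_mem_nhds η (ε := ε / (2 * (D + 1)))
      (by positivity))).exists
    have h2 : Tendsto (fun k => g k (∑ y ∈ s, η y • (dl y : Ell2 (Γ × ι)))) U (𝓝 0) := by
      have h3 : Tendsto (fun k => ∑ y ∈ s, η y * g k (dl y)) U (𝓝 (∑ y ∈ s, η y * 0)) :=
        tendsto_finsetSum s fun y _ => (hy y).const_mul _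
      simp only [mul_zero, Finset.sum_const_zero] at h3
      refine h3.congr fun k => ?_
      rw [map_sum]
      refine Finset.sum_congr rfl fun y _ => ?_
      rw [map_smul, smul_eq_mul]
    filter_upwards [(Metric.tendsto_nhds.mp h2) (ε / 2) (by positivity)] with k hk
    rw [dist_zero_right] at hk ⊢
    have h4 : g k η = g k (η - ∑ y ∈ s, η y • (dl y : Ell2 (Γ × ι))) +
        g k (∑ y ∈ s, η y • (dl y : Ell2 (Γ × ι))) := by rw [← map_add, sub_add_cancel]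
    rw [h4]
    have h5 : ‖η - ∑ y ∈ s, η y • (dl y : Ell2 (Γ × ι))‖ < ε / (2 * (D + 1)) := by
      rw [← dist_eq_norm, dist_comm]; exact hs
    have h6 : ‖g k (η - ∑ y ∈ s, η y • (dl y : Ell2 (Γ × ι)))‖ ≤ ε / 2 := by
      calc _ ≤ ‖g k‖ * ‖η - ∑ y ∈ s, η y • (dl y : Ell2 (Γ × ι))‖ := (g k).le_opNorm _
        _ ≤ (D + 1) * (ε / (2 * (D + 1))) := by
            have := hg k
            gcongr
            linarith
        _ = ε / 2 := by field_simp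
    calc _ ≤ _ + _ := norm_add_le _ _
      _ < ε := by linarith
  have h1 : ∀ (x : Γ × ι) (η : Ell2 (Γ × ι)),
      Tendsto (fun k => ⟪(dl x : Ell2 (Γ × ι)), f k η⟫_ℂ) U (𝓝 0) := by
    intro x
    refine key (fun k => (innerSL ℂ (dl x : Ell2 (Γ × ι))).comp (f k)) B (fun k => ?_) (h x)
    refine (ContinuousLinearMap.opNorm_comp_le _ _).trans ?_
    rw [innerSL_apply_norm, norm_dl, _root_.one_mul]
    exact hf k
  have h2 : ∀ (η : Ell2 (Γ × ι)) (ξ : Ell2 (Γ × ι)),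
      Tendsto (fun k => ⟪f k η, ξ⟫_ℂ) U (𝓝 0) := by
    intro η
    refine key (fun k => innerSL ℂ (f k η)) (B * ‖η‖) (fun k => ?_) fun x => ?_
    · rw [innerSL_apply_norm]
      refine ((f k).le_opNorm _).trans ?_
      have := hf k
      gcongr
    · have h3 := (Complex.continuous_conj.tendsto _).comp (h1 x η)
      rw [map_zero] at h3
      refine h3.congr fun k => ?_
      rw [Function.comp_apply, inner_conj_symm]; rfl
  have h3 := (Complex.continuous_conj.tendsto _).comp (h2 η ξ)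
  rw [map_zero] at h3
  refine h3.congr fun k => ?_
  rw [Function.comp_apply, inner_conj_symm]

omit hR in
theorem norm_ex_le [DecidableEq ι] (i j : ι) (g : Γ) (ξ : Ell2 (Γ × ι)) : ‖ex i j g ξ‖ ≤ ‖ξ‖ := by
  rw [ex, mul_ap, norm_rei]
  have := norm_mo_le (abs_ite_le i) ξ
  rwa [_root_.one_mul] at this

/-- Elements of the right algebra commute weakly with asymptotically right invariant functions,
along vectors `R(z_k) ξ`. -/
theorem weak_comm [DecidableEq ι] {T : Ell2 (Γ × ι) →L[ℂ] Ell2 (Γ × ι)} (hT : RA T)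
    (hF : ∀ k g, |F k g| ≤ C) (z z' : ℕ → Λ)
    (h : ∀ t : Γ, SmallA U R z (fun k g => F k (g * t) - F k g)) (ξ η : Ell2 (Γ × ι)) :
    Tendsto (fun k => ⟪R (z' k) ξ, mp ι (F k) (T (R (z k) η)) - T (mp ι (F k) (R (z k) η))⟫_ℂ) U
      (𝓝 0) := by
  have hC : 0 ≤ C := (abs_nonneg _).trans (hF 0 1)
  have hmp : ∀ k, ‖mp ι (F k)‖ ≤ C := fun k => opNorm_mo_le (mp_bdd (hF k)) hC
  have hb : ∀ k, ‖adjoint (R (z' k)) * (mp ι (F k) * T - T * mp ι (F k)) * R (z k)‖ ≤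
      C * ‖T‖ + ‖T‖ * C := by
    intro k
    have h1 : ‖mp ι (F k) * T - T * mp ι (F k)‖ ≤ C * ‖T‖ + ‖T‖ * C := by
      refine (norm_sub_le _ _).trans (add_le_add ?_ ?_)
      · refine (norm_mul_le _ _).trans ?_
        have := hmp k
        gcongr
      · refine (norm_mul_le _ _).trans ?_
        have := hmp k
        gcongr
    have h0 : 0 ≤ C * ‖T‖ + ‖T‖ * C := by positivity
    refine (norm_mul_le _ _).trans ?_
    refine (mul_le_mul ((norm_mul_le _ _).trans (mul_le_mul (a := ‖adjoint (R (z' k))‖) (b := 1)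
      ?_ h1 (norm_nonneg _) zero_le_one)) (hR.opNorm_le (z k)) (norm_nonneg _) (by positivity)).trans
      (by rw [_root_.one_mul, _root_.mul_one])
    rw [hR.adj]; exact hR.opNorm_le _
  have hgoal := tendsto_of_basis (U := U)
    (f := fun k => adjoint (R (z' k)) * (mp ι (F k) * T - T * mp ι (F k)) * R (z k)) hb
  refine (hgoal ?_ ξ η).congr fun k => ?_
  swap
  · rw [mul_ap, mul_ap, adjoint_inner_right, sub_apply, mul_ap, mul_ap]
  intro x y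
  rw [Metric.tendsto_nhds]
  intro ε hε
  obtain ⟨δ, hδ0, hδ⟩ : ∃ δ : ℝ, 0 < δ ∧ 2 * C * δ < ε / 2 := by
    refine ⟨ε / (4 * (C + 1)), by positivity, ?_⟩
    rw [mul_div_assoc', div_lt_iff₀ (by positivity)]
    nlinarith
  obtain ⟨A, hA⟩ := exists_appr T (ε := δ ^ 2) (by positivity)
  obtain ⟨a, ha⟩ : ∃ a, a = appr T A := ⟨_, rfl⟩
  rw [← ha] at hA
  have haR : RA a := by rw [ha]; exact appr_ra T A
  have hTa : RA (T - a) := hT.sub haR
  -- the two small terms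
  have hsm1 : ∀ (v : Λ) (u : Γ × ι), ‖(T - a) (R v (dl u))‖ ≤ δ := by
    intro v u
    have h1 : (T - a) (R v (dl u)) = ((T - a) * R v) (lx u.1 (ep u.2)) := by
      rw [mul_ap, lx_ep]
    rw [h1]
    refine (two_norm_lx (hTa.mul (hR.ra v)) _ _).trans ?_
    rw [Real.sqrt_le_left hδ0.le]
    refine (nn_mul_le_right hTa (hR.ra v)).trans ?_
    have h2 : ‖R v‖ ^ 2 ≤ 1 := pow_le_one₀ (norm_nonneg _) (hR.opNorm_le v)
    calc _ ≤ 1 * nn (T - a) := by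
          have := nn_nonneg (T - a)
          gcongr
      _ ≤ δ ^ 2 := by rw [_root_.one_mul]; exact hA
  have hsm2 : ∀ (v : Λ) (u : Γ × ι), ‖adjoint (T - a) (R v (dl u))‖ ≤ δ := by
    intro v u
    have h1 : adjoint (T - a) (R v (dl u)) = (adjoint (T - a) * R v) (lx u.1 (ep u.2)) := by
      rw [mul_ap, lx_ep]
    rw [h1]
    refine (two_norm_lx ((ra_adjoint hTa).mul (hR.ra v)) _ _).trans ?_
    rw [Real.sqrt_le_left hδ0.le]
    refine (nn_mul_le_right (ra_adjoint hTa) (hR.ra v)).trans ?_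
    have h2 : ‖R v‖ ^ 2 ≤ 1 := pow_le_one₀ (norm_nonneg _) (hR.opNorm_le v)
    rw [nn_adjoint hTa]
    calc _ ≤ 1 * nn (T - a) := by
          have := nn_nonneg (T - a)
          gcongr
      _ ≤ δ ^ 2 := by rw [_root_.one_mul]; exact hA
  -- the commutators with the shifts
  have hCm : Tendsto (fun k => ∑ i, ∑ u ∈ A, ‖(T (ep i) : Ell2 (Γ × ι)) u‖ *
      ‖mp ι (fun g => F k (g * u.1) - F k g) (R (z k) (dl y))‖) U (𝓝 0) := by
    have := tendsto_finsetSum (Finset.univ : Finset ι) fun i _ => tendsto_finsetSum A fun u _ =>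
      ((h u.1) (dl y)).const_mul ‖(T (ep i) : Ell2 (Γ × ι)) u‖
    simpa using this
  filter_upwards [(Metric.tendsto_nhds.mp hCm) (ε / 2) (by positivity)] with k hk
  rw [dist_zero_right] at hk ⊢
  rw [Real.norm_of_nonneg (Finset.sum_nonneg fun i _ => Finset.sum_nonneg fun u _ => by
    positivity)] at hk
  rw [mul_ap, mul_ap, adjoint_inner_right, sub_apply, mul_ap, mul_ap]
  obtain ⟨η', hη'⟩ : ∃ η', η' = R (z k) (dl y) := ⟨_, rfl⟩
  obtain ⟨ξ', hξ'⟩ : ∃ ξ', ξ' = R (z' k) (dl x) := ⟨_, rfl⟩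
  have e1 := hsm1 (z k) y
  have e2 := hsm2 (z' k) x
  rw [← hη'] at e1 hk ⊢
  rw [← hξ'] at e2 ⊢
  have hη1 : ‖η'‖ ≤ 1 := by
    rw [hη']; exact (hR.norm_le _ _).trans (norm_dl _).le
  have hξ1 : ‖ξ'‖ ≤ 1 := by
    rw [hξ']; exact (hR.norm_le _ _).trans (norm_dl _).le
  have hkey : ⟪ξ', mp ι (F k) (T η') - T (mp ι (F k) η')⟫_ℂ =
      ⟪ξ', mp ι (F k) ((T - a) η')⟫_ℂ - ⟪adjoint (T - a) ξ', mp ι (F k) η'⟫_ℂ +
      ⟪ξ', mp ι (F k) (a η') - a (mp ι (F k) η')⟫_ℂ := by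
    rw [adjoint_inner_left, sub_apply, sub_apply, map_sub]
    simp only [inner_sub_right]
    ring
  have b1 : ‖⟪ξ', mp ι (F k) ((T - a) η')⟫_ℂ‖ ≤ C * δ := by
    refine (norm_inner_le_norm _ _).trans ?_
    have h2 := norm_mp_le (ι := ι) (hF k) ((T - a) η')
    calc ‖ξ'‖ * ‖mp ι (F k) ((T - a) η')‖ ≤ 1 * (C * δ) := by
          refine mul_le_mul hξ1 (h2.trans ?_) (norm_nonneg _) zero_le_one
          gcongr
      _ = C * δ := _root_.one_mul _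
  have b2 : ‖⟪adjoint (T - a) ξ', mp ι (F k) η'⟫_ℂ‖ ≤ C * δ := by
    refine (norm_inner_le_norm _ _).trans ?_
    have h2 := norm_mp_le (ι := ι) (hF k) η'
    calc _ ≤ δ * (C * 1) := by
          refine mul_le_mul e2 (h2.trans ?_) (norm_nonneg _) hδ0.le
          gcongr
      _ = C * δ := by ring
  have b3 : ‖⟪ξ', mp ι (F k) (a η') - a (mp ι (F k) η')⟫_ℂ‖ ≤
      ∑ i, ∑ u ∈ A, ‖(T (ep i) : Ell2 (Γ × ι)) u‖ *
        ‖mp ι (fun g => F k (g * u.1) - F k g) η'‖ := by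
    have e3 : mp ι (F k) (a η') - a (mp ι (F k) η') = ∑ i, ∑ u ∈ A,
        (T (ep i) : Ell2 (Γ × ι)) u • ex i u.2 u.1 (mp ι (fun g => F k (g * u.1) - F k g) η') := by
      rw [ha, appr]
      simp only [ContinuousLinearMap.sum_apply, map_sum, smul_apply, map_smul]
      rw [← Finset.sum_sub_distrib]
      refine Finset.sum_congr rfl fun i _ => ?_
      rw [← Finset.sum_sub_distrib]
      refine Finset.sum_congr rfl fun u _ => ?_
      rw [← smul_sub, mp_ex (hF k), ← map_sub]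
      congr 2
      rw [mp, mp, mp, mo_sub (F := fun x : Γ × ι => F k (x.1 * u.1)) (C := C) (fun x => hF k _)
        (mp_bdd (hF k))]
    rw [e3]
    refine (norm_inner_le_norm _ _).trans ?_
    refine (mul_le_mul hξ1 (norm_sum_le _ _) (norm_nonneg _) zero_le_one).trans ?_
    rw [_root_.one_mul]
    refine Finset.sum_le_sum fun i _ => (norm_sum_le _ _).trans (Finset.sum_le_sum fun u _ => ?_)
    rw [norm_smul]
    have := norm_ex_le i u.2 u.1 (mp ι (fun g => F k (g * u.1) - F k g) η')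
    gcongr
  rw [hkey]
  calc _ ≤ ‖⟪ξ', mp ι (F k) ((T - a) η')⟫_ℂ - ⟪adjoint (T - a) ξ', mp ι (F k) η'⟫_ℂ‖ +
        ‖⟪ξ', mp ι (F k) (a η') - a (mp ι (F k) η')⟫_ℂ‖ := norm_add_le _ _
    _ ≤ (C * δ + C * δ) + ∑ i, ∑ u ∈ A, ‖(T (ep i) : Ell2 (Γ × ι)) u‖ *
        ‖mp ι (fun g => F k (g * u.1) - F k g) η'‖ :=
        add_le_add ((norm_sub_le _ _).trans (add_le_add b1 b2)) b3
    _ < ε := by linarith

/-- Conjugation: `R_v Π_z(F) R_v* = Π_{v z v⁻¹}(F)`. -/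
theorem pa_conj [DecidableEq ι] (hF : ∀ k g, |F k g| ≤ C) (v : Λ)
    (h : ∀ t : Γ, SmallA U R z (fun k g => F k (g * t) - F k g)) :
    R v * PiA U R z F * R v⁻¹ = PiA U R (fun k => v * z k * v⁻¹) F := by
  refine op_ext_inner fun ξ η => ?_
  rw [mul_ap, mul_ap, hR.inner_right]
  refine tendsto_nhds_unique (pa_spec hR hF (R v⁻¹ ξ) (R v⁻¹ η)) ?_
  have h1 := pa_spec (U := U) (z := fun k => v * z k * v⁻¹) hR hF ξ η
  have h2 := weak_comm (U := U) hR (hR.ra v) hF z (fun k => v * z k) h (R v⁻¹ ξ) (R v⁻¹ η)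
  have h3 := h1.sub h2
  rw [sub_zero] at h3
  refine h3.congr fun k => ?_
  have e1 : R (v * z k * v⁻¹) ξ = R (v * z k) (R v⁻¹ ξ) := by rw [hR.app]
  have e2 : R (v * z k * v⁻¹) η = R v (R (z k) (R v⁻¹ η)) := by rw [hR.app, hR.app, mul_assoc]
  rw [e1, e2, inner_sub_right, sub_sub_cancel, ← hR.app v (z k), hR.inner_map]
  have e3 : R 1 (R (z k) (R v⁻¹ ξ)) = R (z k) (R v⁻¹ ξ) := by rw [hR.app, one_mul]
  rw [e3, hR.inner_right, inv_one, e3]

/-- Commutation with `R_v` for `v` commuting with all `z_k`. -/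
theorem pa_comm [DecidableEq ι] (hF : ∀ k g, |F k g| ≤ C) (v : Λ) (hv : ∀ k, z k * v = v * z k)
    (h : ∀ t : Γ, SmallA U R z (fun k g => F k (g * t) - F k g)) :
    PiA U R z F * R v = R v * PiA U R z F := by
  have h1 := pa_conj (U := U) hR hF v h
  have h2 : (fun k => v * z k * v⁻¹) = z := by
    funext k
    rw [← hv k, mul_inv_cancel_right]
  rw [h2] at h1
  have h3 := congrArg (fun T => T * R v) h1
  simp only [mul_assoc] at h3
  rw [hR.inv_mul, pa_mul_one hR hF] at h3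
  exact h3.symm

end pia

end Vale.Agent.P092.H432
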