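import Vale.Agent.P092.H432.PiA
import Vale.Agent.P092.H108.Iso

/-!
P092 (helper432), stage (S), block [S7](a): the invariant positive functional on the commutant of an
amplified frame, `Γ` with infinite nontrivial conjugacy classes.
-/

set_option linter.all false

open scoped InnerProductSpace
open Filter Topology ContinuousLinearMap

namespace Vale.Agent.P092.H432

open Vale.Agent.P092.H160 Vale.Agent.P092.H553

/-! ### Convex combinations of conjugates -/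

section abs

variable {H : Type} [NormedAddCommGroup H] [InnerProductSpace ℂ H] [CompleteSpace H]

/-- Convex combinations of the `W g η` converge to a fixed vector. -/
theorem exists_conv {G : Type} [Group G] (W : G → (H →L[ℂ] H)) (hWW : ∀ g h x, W g (W h x) = W (g * h) x)
    (hWn : ∀ g x, ‖W g x‖ ≤ ‖x‖) (η : H) : ∃ ζ, (∀ g, W g ζ = ζ) ∧ ∀ ε : ℝ, 0 < ε →
      ∃ (J : Type) (_ : Fintype J) (w : J → ℝ) (g : J → G), (∀ j, 0 ≤ w j) ∧ ∑ j, w j = 1 ∧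
        ‖∑ j, (w j : ℂ) • W (g j) η - ζ‖ < ε := by
  obtain ⟨ζ, hζ, hfix⟩ := H108.exists_fixed_hull (G := G) (LinearMap.id : H →ₗ[ℝ] H)
    (fun g => ((W g : H →L[ℂ] H) : H →ₗ[ℂ] H).restrictScalars ℝ) η (fun g h x => hWW g h x)
    (fun g x => W g x) (fun g => (W g).continuous) hWn (fun g y _ => rfl)
  refine ⟨ζ, hfix, fun ε hε => ?_⟩
  obtain ⟨_, ⟨y, hy, rfl⟩, hd⟩ := Metric.mem_closure_iff.1 hζ ε hε
  rw [LinearMap.id_apply] at hd
  rw [mem_convexHull_iff_exists_fintype] at hy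
  obtain ⟨J, hJ, w, z, hw0, hw1, hz, rfl⟩ := hy
  choose g hg using hz
  refine ⟨J, hJ, w, g, hw0, hw1, ?_⟩
  rw [dist_comm, dist_eq_norm] at hd
  have h1 : ∀ j, (w j : ℂ) • W (g j) η = w j • z j := by
    intro j
    rw [← hg j, Complex.coe_smul]
    rfl
  simp only [h1]
  exact hd

end abs

section grp

variable {Γ ι : Type} [Group Γ]

/-- right translation -/
noncomputable def rg (s : Γ) : Ell2 (Γ × ι) →L[ℂ] Ell2 (Γ × ι) :=
  rei ((Equiv.mulRight s⁻¹).prodCongr (Equiv.refl ι))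

theorem rg_apply (s : Γ) (ξ : Ell2 (Γ × ι)) (x : Γ × ι) : rg s ξ x = ξ (x.1 * s, x.2) := by
  change ξ (x.1 * s⁻¹⁻¹, x.2) = _
  rw [inv_inv]

theorem norm_rg (s : Γ) (ξ : Ell2 (Γ × ι)) : ‖rg s ξ‖ = ‖ξ‖ := norm_rei _ _

theorem rg_dl (s h : Γ) (i : ι) : rg s (dl (h, i) : Ell2 (Γ × ι)) = dl (h * s⁻¹, i) := by
  rw [rg, rei_dl]; rfl

theorem adjoint_rg (s : Γ) :
    adjoint (rg s : Ell2 (Γ × ι) →L[ℂ] Ell2 (Γ × ι)) = rg s⁻¹ := by
  rw [rg, adjoint_rei]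
  ext ξ x
  change ξ (x.1 * s⁻¹, x.2) = ξ (x.1 * s⁻¹⁻¹⁻¹, x.2)
  rw [inv_inv]

theorem rg_ra (s : Γ) : RA (rg s : Ell2 (Γ × ι) →L[ℂ] Ell2 (Γ × ι)) := by
  intro g
  ext ξ x
  rw [mul_ap, mul_ap, rg_apply, lxH_apply, lx_apply, lx_apply, rg_apply, mul_assoc]

/-- conjugation -/
noncomputable def ad (g : Γ) : Ell2 (Γ × ι) →L[ℂ] Ell2 (Γ × ι) := lx g * rg g

theorem ad_apply (g : Γ) (ξ : Ell2 (Γ × ι)) (x : Γ × ι) :
    ad g ξ x = ξ (g⁻¹ * x.1 * g, x.2) := by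
  rw [ad, mul_ap, lx_apply, rg_apply]

theorem norm_ad (g : Γ) (ξ : Ell2 (Γ × ι)) : ‖ad g ξ‖ = ‖ξ‖ := by
  rw [ad, mul_ap, norm_lx, norm_rg]

theorem ad_ad (g h : Γ) (ξ : Ell2 (Γ × ι)) : ad g (ad h ξ) = ad (g * h) ξ := by
  ext x
  rw [ad_apply, ad_apply, ad_apply]
  congr 2
  group

/-- Fixed vectors of the conjugation are supported on the class of `1`. -/
theorem ad_fixed (hΓ : ∀ g : Γ, g ≠ 1 → Set.Infinite {y | ∃ h, y = h * g * h⁻¹})
    {ζ : Ell2 (Γ × ι)} (h : ∀ g, ad g ζ = ζ) {x : Γ} (hx : x ≠ 1) (j : ι) : ζ (x, j) = 0 := by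
  by_contra hc
  have h1 := (summable_sq ζ).tendsto_cofinite_zero
  have h2 : ∀ᶠ y in cofinite, ‖ζ y‖ ^ 2 < ‖ζ (x, j)‖ ^ 2 := by
    refine h1.eventually (gt_mem_nhds ?_)
    have : 0 < ‖ζ (x, j)‖ := norm_pos_iff.2 hc
    positivity
  rw [eventually_cofinite] at h2
  have h3 : Set.Finite ((fun y : Γ => (y, j)) ⁻¹' {y | ¬ ‖ζ y‖ ^ 2 < ‖ζ (x, j)‖ ^ 2}) :=
    h2.preimage fun a _ b _ hab => (Prod.mk.inj hab).1
  refine hΓ x hx (h3.subset ?_)
  rintro _ ⟨k, rfl⟩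
  have h4 : ad k⁻¹ ζ (x, j) = ζ (x, j) := by rw [h]
  rw [ad_apply, inv_inv] at h4
  simp only [Set.mem_preimage, Set.mem_setOf_eq, not_lt]
  rw [h4]

end grp

/-! ### The averaging maps -/

section avg

variable {Γ ι : Type} [Group Γ] [DecidableEq ι] [Fintype ι]

theorem adjoint_ex (i j : ι) (g : Γ) :
    adjoint (ex i j g : Ell2 (Γ × ι) →L[ℂ] Ell2 (Γ × ι)) = ex j i g⁻¹ := by
  rw [ex, adjoint_mul, adjoint_mo (abs_ite_le i), adjoint_rei]
  ext ξ x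
  rw [mul_ap, mo_apply (abs_ite_le i), ex_apply, rei_apply, inv_inv]
  change _ * ξ (x.1 * g, Equiv.swap i j x.2) = _
  by_cases h : x.2 = i
  · rw [if_pos h, if_pos h, h, Equiv.swap_apply_left]; simp
  · rw [if_neg h, if_neg h]; simp

/-- the averaging map -/
noncomputable def av (g : Γ) (T : Ell2 (Γ × ι) →L[ℂ] Ell2 (Γ × ι)) :
    Ell2 (Γ × ι) →L[ℂ] Ell2 (Γ × ι) :=
  ∑ a, ∑ b, ex a b g * T * ex b a g⁻¹

theorem av_add (g : Γ) (S T : Ell2 (Γ × ι) →L[ℂ] Ell2 (Γ × ι)) :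
    av g (S + T) = av g S + av g T := by
  simp only [av, mul_add, add_mul, Finset.sum_add_distrib]

theorem av_smul (g : Γ) (c : ℂ) (T : Ell2 (Γ × ι) →L[ℂ] Ell2 (Γ × ι)) :
    av g (c • T) = c • av g T := by
  simp only [av, mul_smul_comm, smul_mul_assoc, Finset.smul_sum]

theorem av_adjoint (g : Γ) (T : Ell2 (Γ × ι) →L[ℂ] Ell2 (Γ × ι)) :
    adjoint (av g T) = av g (adjoint T) := by
  rw [av, av, map_sum, Finset.sum_comm]
  rw [Finset.sum_congr rfl fun a _ => map_sum _ _ _]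
  rw [Finset.sum_comm]
  refine Finset.sum_congr rfl fun a _ => Finset.sum_congr rfl fun b _ => ?_
  rw [adjoint_mul, adjoint_mul, adjoint_ex, adjoint_ex, inv_inv, mul_assoc]

theorem av_norm (g : Γ) (T : Ell2 (Γ × ι) →L[ℂ] Ell2 (Γ × ι)) :
    ‖av g T‖ ≤ (Fintype.card ι : ℝ) * (Fintype.card ι : ℝ) * ‖T‖ := by
  have h1 : ∀ a b : ι, ‖ex a b g * T * ex b a g⁻¹‖ ≤ ‖T‖ := by
    intro a b
    refine ContinuousLinearMap.opNorm_le_bound _ (norm_nonneg _) fun ξ => ?_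
    rw [mul_ap, mul_ap]
    refine (norm_ex_le _ _ _ _).trans ((T.le_opNorm _).trans ?_)
    have := norm_ex_le b a g⁻¹ ξ
    gcongr
  calc ‖av g T‖ ≤ ∑ a : ι, ∑ b : ι, ‖ex a b g * T * ex b a g⁻¹‖ :=
        (norm_sum_le _ _).trans (Finset.sum_le_sum fun a _ => norm_sum_le _ _)
    _ ≤ ∑ a : ι, ∑ b : ι, ‖T‖ := Finset.sum_le_sum fun a _ => Finset.sum_le_sum fun b _ => h1 a b
    _ = _ := by simp [mul_assoc]

theorem av_pos (g : Γ) {T : Ell2 (Γ × ι) →L[ℂ] Ell2 (Γ × ι)} (hT : ∀ ξ, 0 ≤ (⟪ξ, T ξ⟫_ℂ).re)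
    (ξ : Ell2 (Γ × ι)) : 0 ≤ (⟪ξ, av g T ξ⟫_ℂ).re := by
  rw [av, ContinuousLinearMap.sum_apply, inner_sum, Complex.re_sum]
  refine Finset.sum_nonneg fun a _ => ?_
  rw [ContinuousLinearMap.sum_apply, inner_sum, Complex.re_sum]
  refine Finset.sum_nonneg fun b _ => ?_
  rw [mul_ap, mul_ap, ← adjoint_inner_left, adjoint_ex]
  exact hT _

theorem av_lx (g s : Γ) (T : Ell2 (Γ × ι) →L[ℂ] Ell2 (Γ × ι)) :
    av g (lx s * T * lx s⁻¹) = lx s * av g T * lx s⁻¹ := by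
  rw [av, av, Finset.mul_sum, Finset.sum_mul]
  refine Finset.sum_congr rfl fun a _ => ?_
  rw [Finset.mul_sum, Finset.sum_mul]
  refine Finset.sum_congr rfl fun b _ => ?_
  have h1 : ex a b g * lx s = lx s * ex a b g := ex_ra a b g s
  have h2 : ex b a g⁻¹ * lx s⁻¹ = lx s⁻¹ * ex b a g⁻¹ := ex_ra b a g⁻¹ s⁻¹
  calc ex a b g * (lx s * T * lx s⁻¹) * ex b a g⁻¹
      = (ex a b g * lx s) * T * (lx s⁻¹ * ex b a g⁻¹) := by simp only [mul_assoc]
    _ = (lx s * ex a b g) * T * (ex b a g⁻¹ * lx s⁻¹) := by rw [h1, h2]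
    _ = _ := by simp only [mul_assoc]

theorem av_ep {T : Ell2 (Γ × ι) →L[ℂ] Ell2 (Γ × ι)} (hT : RA T) (g : Γ) (b : ι) (x : Γ × ι) :
    (av g T (ep b) : Ell2 (Γ × ι)) x =
      if x.2 = b then ∑ a, (T (ep a) : Ell2 (Γ × ι)) (g * x.1 * g⁻¹, a) else 0 := by
  have h1 : av g T (ep b) = ∑ a, ex a b g (lx g⁻¹ (T (ep a))) := by
    rw [av, ContinuousLinearMap.sum_apply]
    refine Finset.sum_congr rfl fun a _ => ?_
    rw [ContinuousLinearMap.sum_apply, Finset.sum_eq_single b]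
    · rw [mul_ap, mul_ap, ex_ep_self, ← lx_ep, hT.app]
    · intro k _ hk
      rw [mul_ap, ex_ep_ne hk.symm, map_zero]
    · intro h
      exact absurd (Finset.mem_univ b) h
  rw [h1, lp.coeFn_sum, Finset.sum_apply]
  by_cases h : x.2 = b
  · rw [if_pos h]
    refine Finset.sum_congr rfl fun a _ => ?_
    rw [ex_apply, if_pos h, lx_apply, inv_inv, mul_assoc]
  · rw [if_neg h]
    refine Finset.sum_eq_zero fun a _ => ?_
    rw [ex_apply, if_neg h]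

theorem av_ep_ad {T : Ell2 (Γ × ι) →L[ℂ] Ell2 (Γ × ι)} (hT : RA T) (g : Γ) (b : ι) :
    av g⁻¹ T (ep b) = ad g (av 1 T (ep b)) := by
  ext x
  rw [av_ep hT, ad_apply, av_ep hT]
  by_cases h : x.2 = b
  · rw [if_pos h, if_pos h]
    simp only [inv_inv, one_mul, inv_one, mul_one]
  · rw [if_neg h, if_neg h]

theorem av_ra {T : Ell2 (Γ × ι) →L[ℂ] Ell2 (Γ × ι)} (hT : RA T) (g : Γ) : RA (av g T) :=
  RA.sum _ fun a _ => RA.sum _ fun b _ => ((ex_ra a b g).mul hT).mul (ex_ra b a g⁻¹)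

/-- the key identity -/
theorem av_swap {P T : Ell2 (Γ × ι) →L[ℂ] Ell2 (Γ × ι)} (h1 : P * T = T) (h2 : T * P = T)
    (h3 : ∀ X, RA X → T * (P * X * P) = (P * X * P) * T) {c : Ell2 (Γ × ι) →L[ℂ] Ell2 (Γ × ι)}
    (hc : RA c) (g h : Γ) : av g P * c * av h T = av g T * c * av h P := by
  have key : ∀ a b a' b' : ι, (ex a b g * P * ex b a g⁻¹) * c * (ex a' b' h * T * ex b' a' h⁻¹) =
      (ex a b g * T * ex b a g⁻¹) * c * (ex a' b' h * P * ex b' a' h⁻¹) := by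
    intro a b a' b'
    obtain ⟨X, hX⟩ : ∃ X, X = ex b a g⁻¹ * c * ex a' b' h := ⟨_, rfl⟩
    have hXR : RA X := by rw [hX]; exact ((ex_ra _ _ _).mul hc).mul (ex_ra _ _ _)
    have e1 : P * X * T = T * X * P := by
      calc P * X * T = P * X * (P * T) := by rw [h1]
        _ = (P * X * P) * T := by simp only [mul_assoc]
        _ = T * (P * X * P) := (h3 X hXR).symm
        _ = (T * P) * X * P := by simp only [mul_assoc]
        _ = T * X * P := by rw [h2]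
    calc (ex a b g * P * ex b a g⁻¹) * c * (ex a' b' h * T * ex b' a' h⁻¹)
        = ex a b g * (P * (ex b a g⁻¹ * c * ex a' b' h) * T) * ex b' a' h⁻¹ := by
          simp only [mul_assoc]
      _ = ex a b g * (T * (ex b a g⁻¹ * c * ex a' b' h) * P) * ex b' a' h⁻¹ := by
          rw [← hX, e1]
      _ = _ := by simp only [mul_assoc]
  rw [av, av, av, av]
  simp only [Finset.sum_mul, Finset.mul_sum]
  refine Finset.sum_congr rfl fun a' _ => Finset.sum_congr rfl fun b' _ =>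
    Finset.sum_congr rfl fun a _ => Finset.sum_congr rfl fun b _ => ?_
  exact key _ _ _ _

end avg

/-! ### Commutation with the corner -/

section corner

variable {Γ Λ ι : Type} [Group Γ] [Group Λ] [Fintype ι] {t : ℝ}
  {R : Λ → (Ell2 (Γ × ι) →L[ℂ] Ell2 (Γ × ι))}

/-- An operator commuting with the frame commutes with the corner. -/
theorem comm_corner (hR : AFrame t R) {T : Ell2 (Γ × ι) →L[ℂ] Ell2 (Γ × ι)}
    (hT : ∀ v, T * R v = R v * T) {X : Ell2 (Γ × ι) →L[ℂ] Ell2 (Γ × ι)} (hX : RA X)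
    (hXP : R 1 * X * R 1 = X) : T * X = X * T := by
  apply op_ext
  intro y
  apply ext_inner_dl
  intro x
  rw [← sub_eq_zero, ← inner_dl x ((T * X) (dl y)), ← inner_dl x ((X * T) (dl y)), ← inner_sub_right,
    ← norm_le_zero_iff]
  refine le_of_forall_pos_le_add fun ε hε => ?_
  obtain ⟨δ, hδ⟩ : ∃ δ : ℝ, δ = ε / (2 * (‖T‖ + 1)) := ⟨_, rfl⟩
  have hδ0 : 0 < δ := by rw [hδ]; positivity
  obtain ⟨s, c, hs⟩ := hR.dense X hX hXP δ hδ0
  obtain ⟨Y, hY⟩ : ∃ Y, Y = ∑ v ∈ s, c v • R v := ⟨_, rfl⟩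
  have hYR : RA Y := by rw [hY]; exact RA.sum _ fun v _ => (hR.ra v).smul _
  have hYT : T * Y = Y * T := by
    rw [hY, Finset.mul_sum, Finset.sum_mul]
    refine Finset.sum_congr rfl fun v _ => ?_
    rw [mul_smul_comm, smul_mul_assoc, hT]
  have hD : nn (X - Y) ≤ δ ^ 2 := by
    refine le_trans (le_of_eq ?_) hs
    rw [nn]
    refine Finset.sum_congr rfl fun i _ => ?_
    rw [sub_apply, hY, ContinuousLinearMap.sum_apply]
    rfl
  have hsq : Real.sqrt (nn (X - Y)) ≤ δ := by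
    rw [← Real.sqrt_sq hδ0.le]; exact Real.sqrt_le_sqrt hD
  have hsq2 : Real.sqrt (nn (adjoint (X - Y))) ≤ δ := by
    rw [nn_adjoint (hX.sub hYR)]; exact hsq
  have e : (T * X) (dl y) - (X * T) (dl y) = T ((X - Y) (dl y)) - (X - Y) (T (dl y)) := by
    have e1 : T (Y (dl y)) = Y (T (dl y)) := DFunLike.congr_fun hYT (dl y)
    rw [sub_apply, sub_apply, map_sub, e1, mul_ap, mul_ap]
    abel
  rw [e, inner_sub_right, ← adjoint_inner_left (X - Y), zero_add]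
  have b1 : ‖⟪(dl x : Ell2 (Γ × ι)), T ((X - Y) (dl y))⟫_ℂ‖ ≤ ‖T‖ * δ := by
    refine (norm_inner_le_norm _ _).trans ?_
    rw [norm_dl, _root_.one_mul]
    refine (T.le_opNorm _).trans ?_
    have h1 : ‖(X - Y) (dl y)‖ ≤ δ := by
      rw [dl_eq_lx]
      exact (two_norm_lx (hX.sub hYR) _ _).trans hsq
    gcongr
  have b2 : ‖⟪adjoint (X - Y) (dl x : Ell2 (Γ × ι)), T (dl y)⟫_ℂ‖ ≤ δ * ‖T‖ := by
    refine (norm_inner_le_norm _ _).trans ?_
    have h1 : ‖adjoint (X - Y) (dl x)‖ ≤ δ := by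
      rw [dl_eq_lx]
      exact (two_norm_lx (ra_adjoint (hX.sub hYR)) _ _).trans hsq2
    have h2 : ‖T (dl y)‖ ≤ ‖T‖ := by
      have := T.le_opNorm (dl y)
      rwa [norm_dl, _root_.mul_one] at this
    gcongr
  calc _ ≤ _ + _ := norm_sub_le _ _
    _ ≤ ‖T‖ * δ + δ * ‖T‖ := add_le_add b1 b2
    _ ≤ ε := by
      rw [hδ, show ‖T‖ * (ε / (2 * (‖T‖ + 1))) + ε / (2 * (‖T‖ + 1)) * ‖T‖ =
        ε * (‖T‖ / (‖T‖ + 1)) by field_simp; ring]
      have : ‖T‖ / (‖T‖ + 1) ≤ 1 := by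
        rw [div_le_one (by positivity)]; linarith
      nlinarith

end corner

/-! ### The functional -/

section func

variable {Γ Λ ι : Type} [Group Γ] [Group Λ] [Fintype ι] [DecidableEq ι] {t : ℝ}
  {R : Λ → (Ell2 (Γ × ι) →L[ℂ] Ell2 (Γ × ι))}

/-- Data of a convex combination of averaging maps. -/
structure Cv (Γ : Type) where
  J : Type
  fin : Fintype J
  w : J → ℝ
  g : J → Γ
  nonneg : ∀ j, 0 ≤ w j
  sum : ∑ j, w j = 1

attribute [instance] Cv.fin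

/-- The averaging map attached to a convex combination. -/
noncomputable def cav (c : Cv Γ) (T : Ell2 (Γ × ι) →L[ℂ] Ell2 (Γ × ι)) :
    Ell2 (Γ × ι) →L[ℂ] Ell2 (Γ × ι) := ∑ j, (c.w j : ℂ) • av (c.g j) T

theorem cav_add (c : Cv Γ) (S T : Ell2 (Γ × ι) →L[ℂ] Ell2 (Γ × ι)) :
    cav c (S + T) = cav c S + cav c T := by
  simp only [cav, av_add, smul_add, Finset.sum_add_distrib]

theorem cav_smul (c : Cv Γ) (r : ℂ) (T : Ell2 (Γ × ι) →L[ℂ] Ell2 (Γ × ι)) :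
    cav c (r • T) = r • cav c T := by
  simp only [cav, av_smul, Finset.smul_sum]
  refine Finset.sum_congr rfl fun j _ => ?_
  rw [smul_comm]

theorem cav_adjoint (c : Cv Γ) (T : Ell2 (Γ × ι) →L[ℂ] Ell2 (Γ × ι)) :
    adjoint (cav c T) = cav c (adjoint T) := by
  rw [cav, cav, map_sum]
  refine Finset.sum_congr rfl fun j _ => ?_
  rw [← av_adjoint, LinearIsometryEquiv.map_smulₛₗ, Complex.conj_ofReal]

theorem cav_norm (c : Cv Γ) (T : Ell2 (Γ × ι) →L[ℂ] Ell2 (Γ × ι)) :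
    ‖cav c T‖ ≤ (Fintype.card ι : ℝ) * (Fintype.card ι : ℝ) * ‖T‖ := by
  calc ‖cav c T‖ ≤ ∑ j, ‖(c.w j : ℂ) • av (c.g j) T‖ := norm_sum_le _ _
    _ ≤ ∑ j, c.w j * ((Fintype.card ι : ℝ) * (Fintype.card ι : ℝ) * ‖T‖) := by
        refine Finset.sum_le_sum fun j _ => ?_
        rw [norm_smul, Complex.norm_real, Real.norm_of_nonneg (c.nonneg j)]
        exact mul_le_mul_of_nonneg_left (av_norm _ _) (c.nonneg j)
    _ = _ := by rw [← Finset.sum_mul, c.sum, one_mul]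

theorem cav_pos (c : Cv Γ) {T : Ell2 (Γ × ι) →L[ℂ] Ell2 (Γ × ι)}
    (hT : ∀ ξ, 0 ≤ (⟪ξ, T ξ⟫_ℂ).re) (ξ : Ell2 (Γ × ι)) : 0 ≤ (⟪ξ, cav c T ξ⟫_ℂ).re := by
  rw [cav, ContinuousLinearMap.sum_apply, inner_sum, Complex.re_sum]
  refine Finset.sum_nonneg fun j _ => ?_
  rw [smul_apply, inner_smul_right, Complex.re_ofReal_mul]
  exact mul_nonneg (c.nonneg j) (av_pos _ hT ξ)

theorem cav_lx (c : Cv Γ) (s : Γ) (T : Ell2 (Γ × ι) →L[ℂ] Ell2 (Γ × ι)) :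
    cav c (lx s * T * lx s⁻¹) = lx s * cav c T * lx s⁻¹ := by
  rw [cav, cav, Finset.mul_sum, Finset.sum_mul]
  refine Finset.sum_congr rfl fun j _ => ?_
  rw [av_lx, mul_smul_comm, smul_mul_assoc]

theorem cav_ra (c : Cv Γ) {T : Ell2 (Γ × ι) →L[ℂ] Ell2 (Γ × ι)} (hT : RA T) : RA (cav c T) :=
  RA.sum _ fun j _ => (av_ra hT _).smul _

theorem cav_swap {P T : Ell2 (Γ × ι) →L[ℂ] Ell2 (Γ × ι)} (h1 : P * T = T) (h2 : T * P = T)
    (h3 : ∀ X, RA X → T * (P * X * P) = (P * X * P) * T) {X : Ell2 (Γ × ι) →L[ℂ] Ell2 (Γ × ι)}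
    (hX : RA X) (c : Cv Γ) : cav c P * X * cav c T = cav c T * X * cav c P := by
  simp only [cav, Finset.sum_mul, Finset.mul_sum]
  refine Finset.sum_congr rfl fun i _ => Finset.sum_congr rfl fun j _ => ?_
  simp only [smul_mul_assoc, mul_smul_comm]
  rw [av_swap h1 h2 h3 hX]

/-- The value at the basis vectors is the same vector, in different slots. -/
theorem cav_ep_slot (c : Cv Γ) {T : Ell2 (Γ × ι) →L[ℂ] Ell2 (Γ × ι)} (hT : RA T) (a b : ι) :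
    cav c T (ep b) = ex a b 1 (cav c T (ep a)) := by
  have h1 : ∀ g, av g T (ep b) = ex a b 1 (av g T (ep a)) := by
    intro g
    ext x
    rw [av_ep hT, ex_apply]
    by_cases h : x.2 = b
    · rw [if_pos h, if_pos h, av_ep hT, if_pos rfl, inv_one, mul_one]
    · rw [if_neg h, if_neg h]
  rw [cav, ContinuousLinearMap.sum_apply, ContinuousLinearMap.sum_apply, map_sum]
  refine Finset.sum_congr rfl fun j _ => ?_
  rw [smul_apply, smul_apply, map_smul, h1]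

theorem trA_eq {T : Ell2 (Γ × ι) →L[ℂ] Ell2 (Γ × ι)} :
    trA T = ∑ a, (T (ep a) : Ell2 (Γ × ι)) (1, a) :=
  Finset.sum_congr rfl fun a _ => by rw [ep, inner_dl]

/-- Convex combinations of the averaging maps, tending to the trace on the projection. -/
theorem exists_cav (hΓ : ∀ g : Γ, g ≠ 1 → Set.Infinite {y | ∃ h, y = h * g * h⁻¹})
    {P : Ell2 (Γ × ι) →L[ℂ] Ell2 (Γ × ι)} (hP : RA P) (b : ι) {ε : ℝ} (hε : 0 < ε) :
    ∃ c : Cv Γ, ‖cav c P (ep b) - trA P • ep b‖ < ε := by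
  obtain ⟨ζ, hfix, hcv⟩ := exists_conv (fun g : Γ => (ad g : Ell2 (Γ × ι) →L[ℂ] Ell2 (Γ × ι)))
    (fun g h x => ad_ad g h x) (fun g x => (norm_ad g x).le) (av 1 P (ep b))
  have hcv' : ∀ ε : ℝ, 0 < ε → ∃ c : Cv Γ, ‖cav c P (ep b) - ζ‖ < ε := by
    intro ε hε
    obtain ⟨J, hJ, w, g, hw0, hw1, h⟩ := hcv ε hε
    refine ⟨⟨J, hJ, w, fun j => (g j)⁻¹, hw0, hw1⟩, ?_⟩
    refine lt_of_eq_of_lt ?_ h
    congr 2
    rw [cav, ContinuousLinearMap.sum_apply]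
    refine Finset.sum_congr rfl fun j _ => ?_
    rw [smul_apply, av_ep_ad hP]
  -- coordinates of the limit
  have hco : ∀ (x : Γ × ι) (r : ℂ), (∀ c : Cv Γ, (cav c P (ep b) : Ell2 (Γ × ι)) x = r) → ζ x = r := by
    intro x r hr
    rw [← sub_eq_zero, ← norm_le_zero_iff]
    refine le_of_forall_pos_le_add fun δ hδ => ?_
    obtain ⟨c, hc⟩ := hcv' δ hδ
    have h1 := norm_coord_le (cav c P (ep b) - ζ) x
    rw [lp.coeFn_sub, Pi.sub_apply, hr c, norm_sub_rev] at h1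
    linarith
  have hcoord : ∀ (c : Cv Γ) (x : Γ × ι), (cav c P (ep b) : Ell2 (Γ × ι)) x =
      ∑ j, (c.w j : ℂ) * (av (c.g j) P (ep b) : Ell2 (Γ × ι)) x := by
    intro c x
    rw [cav, ContinuousLinearMap.sum_apply, lp.coeFn_sum, Finset.sum_apply]
    rfl
  have hζ : ζ = trA P • ep b := by
    haveI : DecidableEq (Γ × ι) := Classical.decEq _
    ext ⟨x, j⟩
    have hsm : (trA P • ep b : Ell2 (Γ × ι)) (x, j) = trA P * (ep b : Ell2 (Γ × ι)) (x, j) := rfl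
    rw [hsm, ep, dl_apply]
    by_cases hj : j = b
    · subst hj
      by_cases hx : x = 1
      · subst hx
        rw [if_pos rfl, mul_one]
        refine hco _ _ fun c => ?_
        rw [hcoord]
        have h1 : ∀ i, (av (c.g i) P (ep j) : Ell2 (Γ × ι)) (1, j) = trA P := by
          intro i
          rw [av_ep hP, if_pos rfl, trA_eq]
          refine Finset.sum_congr rfl fun a _ => ?_
          simp only [mul_one, mul_inv_cancel]
        simp only [h1]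
        rw [← Finset.sum_mul, ← Complex.ofReal_sum, c.sum, Complex.ofReal_one, one_mul]
      · rw [if_neg (fun h => hx (Prod.mk.inj h).1), mul_zero]
        exact ad_fixed hΓ hfix hx j
    · rw [if_neg (fun h => hj (Prod.mk.inj h).2), mul_zero]
      refine hco _ _ fun c => ?_
      rw [hcoord]
      refine Finset.sum_eq_zero fun i _ => ?_
      rw [av_ep hP, if_neg hj, mul_zero]
  obtain ⟨c, hc⟩ := hcv' ε hε
  exact ⟨c, by rwa [← hζ]⟩

/-- The estimate behind the invariance. -/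
theorem cav_inv (hR : AFrame t R) {T : Ell2 (Γ × ι) →L[ℂ] Ell2 (Γ × ι)}
    (hT : ∀ v, T * R v = R v * T) (hTP : T * R 1 = T) (b : ι) (c : Cv Γ) {δ : ℝ}
    (hc : ‖cav c (R 1) (ep b) - (t : ℂ) • ep b‖ ≤ δ) (s : Γ) :
    ‖(t : ℂ) * (⟪(ep b : Ell2 (Γ × ι)), cav c T (ep b)⟫_ℂ -
      ⟪(ep b : Ell2 (Γ × ι)), cav c (lx s * T * lx s⁻¹) (ep b)⟫_ℂ)‖ ≤
      2 * δ * ((Fintype.card ι : ℝ) * (Fintype.card ι : ℝ) * ‖T‖) := by
  have hδ : 0 ≤ δ := (norm_nonneg _).trans hc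
  have h1 : R 1 * T = T := by rw [← hT, hTP]
  have h3 : ∀ X, RA X → T * (R 1 * X * R 1) = (R 1 * X * R 1) * T := by
    intro X hX
    refine comm_corner hR hT (((hR.ra 1).mul hX).mul (hR.ra 1)) ?_
    have e := hR.toARep.one_mul_one
    calc R 1 * (R 1 * X * R 1) * R 1 = (R 1 * R 1) * X * (R 1 * R 1) := by simp only [mul_assoc]
      _ = _ := by rw [e]
  have hsw : cav c (R 1) (rg s (cav c T (ep b))) = cav c T (rg s (cav c (R 1) (ep b))) :=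
    DFunLike.congr_fun (cav_swap h1 hTP h3 (rg_ra s) c) (ep b)
  have hadj : adjoint (cav c (R 1)) = cav c (R 1) := by
    rw [cav_adjoint, hR.toARep.adj_one]
  have hra := cav_ra c (hR.ra 1)
  obtain ⟨δ', hδ'⟩ : ∃ δ' : Ell2 (Γ × ι), δ' = lx s⁻¹ (ep b) := ⟨_, rfl⟩
  have hrs : rg s (ep b) = δ' := by rw [hδ', lx_ep, ep, rg_dl, one_mul]
  have hrs' : rg s⁻¹ δ' = ep b := by
    rw [hδ', lx_ep, rg_dl, inv_inv, inv_mul_cancel, ep]
  have hn' : ‖δ'‖ = 1 := by rw [hδ', norm_lx, ep, norm_dl]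
  have hn : ‖(ep b : Ell2 (Γ × ι))‖ = 1 := by rw [ep, norm_dl]
  have hcT : ∀ ξ : Ell2 (Γ × ι), ‖ξ‖ ≤ 1 →
      ‖cav c T ξ‖ ≤ (Fintype.card ι : ℝ) * (Fintype.card ι : ℝ) * ‖T‖ := by
    intro ξ hξ
    refine ((cav c T).le_opNorm ξ).trans ?_
    refine (mul_le_mul_of_nonneg_left hξ (norm_nonneg _)).trans ?_
    rw [_root_.mul_one]
    exact cav_norm c T
  -- first side
  have e1 : ⟪δ', cav c (R 1) (rg s (cav c T (ep b)))⟫_ℂ =
      ⟪cav c (R 1) δ', rg s (cav c T (ep b))⟫_ℂ := by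
    rw [← adjoint_inner_left, hadj]
  have e2 : cav c (R 1) δ' = lx s⁻¹ (cav c (R 1) (ep b)) := by
    rw [hδ', hra.app]
  have e3 : ⟪(t : ℂ) • δ', rg s (cav c T (ep b))⟫_ℂ = (t : ℂ) * ⟪(ep b : Ell2 (Γ × ι)), cav c T (ep b)⟫_ℂ := by
    rw [inner_smul_left, Complex.conj_ofReal, ← adjoint_inner_left, adjoint_rg, hrs']
  have e4 : ‖cav c (R 1) δ' - (t : ℂ) • δ'‖ ≤ δ := by
    rw [e2, hδ', ← map_smul, ← map_sub, norm_lx]
    exact hc
  have b1 : ‖⟪δ', cav c (R 1) (rg s (cav c T (ep b)))⟫_ℂ -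
      (t : ℂ) * ⟪(ep b : Ell2 (Γ × ι)), cav c T (ep b)⟫_ℂ‖ ≤
      δ * ((Fintype.card ι : ℝ) * (Fintype.card ι : ℝ) * ‖T‖) := by
    rw [e1, ← e3, ← inner_sub_left]
    refine (norm_inner_le_norm _ _).trans ?_
    rw [norm_rg]
    have := hcT (ep b) hn.le
    gcongr
  -- second side
  have e6 : (t : ℂ) * ⟪(ep b : Ell2 (Γ × ι)), cav c (lx s * T * lx s⁻¹) (ep b)⟫_ℂ =
      ⟪δ', cav c T (rg s ((t : ℂ) • ep b))⟫_ℂ := by
    rw [cav_lx, mul_ap, mul_ap, inner_lx_right, ← hδ', map_smul, map_smul, inner_smul_right, hrs]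
  have b2 : ‖⟪δ', cav c T (rg s (cav c (R 1) (ep b)))⟫_ℂ -
      (t : ℂ) * ⟪(ep b : Ell2 (Γ × ι)), cav c (lx s * T * lx s⁻¹) (ep b)⟫_ℂ‖ ≤
      δ * ((Fintype.card ι : ℝ) * (Fintype.card ι : ℝ) * ‖T‖) := by
    rw [e6, ← inner_sub_right, ← map_sub, ← map_sub]
    refine (norm_inner_le_norm _ _).trans ?_
    rw [hn', one_mul]
    refine ((cav c T).le_opNorm _).trans ?_
    rw [norm_rg, mul_comm]
    have := cav_norm c T
    gcongr
  have e7 : (t : ℂ) * (⟪(ep b : Ell2 (Γ × ι)), cav c T (ep b)⟫_ℂ -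
      ⟪(ep b : Ell2 (Γ × ι)), cav c (lx s * T * lx s⁻¹) (ep b)⟫_ℂ) =
      (⟪δ', cav c T (rg s (cav c (R 1) (ep b)))⟫_ℂ -
        (t : ℂ) * ⟪(ep b : Ell2 (Γ × ι)), cav c (lx s * T * lx s⁻¹) (ep b)⟫_ℂ) -
      (⟪δ', cav c (R 1) (rg s (cav c T (ep b)))⟫_ℂ -
        (t : ℂ) * ⟪(ep b : Ell2 (Γ × ι)), cav c T (ep b)⟫_ℂ) := by
    rw [hsw]; ring
  rw [e7]
  refine (norm_sub_le _ _).trans ?_
  linarith

/-- **Block [S7](a)**: a positive functional, invariant on the commutant of the frame. -/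
theorem exists_nu' (hΓ : ∀ g : Γ, g ≠ 1 → Set.Infinite {y | ∃ h, y = h * g * h⁻¹})
    (hR : AFrame t R) :
    ∃ ν : (Ell2 (Γ × ι) →L[ℂ] Ell2 (Γ × ι)) →ₗ[ℝ] ℝ,
      (∀ T, (∀ ξ, 0 ≤ (⟪ξ, T ξ⟫_ℂ).re) → 0 ≤ ν T) ∧ ν (R 1) = 1 ∧
      ∀ T, (∀ v, T * R v = R v * T) → T * R 1 = T → ∀ s, ν (lx s * T * lx s⁻¹) = ν T := by
  have htr : trA (R 1) = (t : ℂ) := hR.tr_one
  have hne : Nonempty ι := by
    by_contra h
    rw [not_nonempty_iff] at h
    have h1 : trA (R 1) = 0 := Finset.sum_of_isEmpty _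
    rw [htr] at h1
    exact hR.pos.ne' (by exact_mod_cast h1)
  obtain ⟨b⟩ := hne
  have hex : ∀ k : ℕ, ∃ c : Cv Γ, ‖cav c (R 1) (ep b) - (t : ℂ) • ep b‖ < 1 / ((k : ℝ) + 1) := by
    intro k
    have := exists_cav hΓ (hR.ra 1) b (ε := 1 / ((k : ℝ) + 1)) (by positivity)
    rwa [htr] at this
  choose c hc using hex
  obtain ⟨U, hU⟩ : ∃ U : Ultrafilter ℕ, U = hyperfilter ℕ := ⟨_, rfl⟩
  have hUat : (U : Filter ℕ) ≤ atTop := by
    rw [hU, ← Nat.cofinite_eq_atTop]; exact hyperfilter_le_cofinite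
  have hlim : ∀ T : Ell2 (Γ × ι) →L[ℂ] Ell2 (Γ × ι), Tendsto
      (fun k => (⟪(ep b : Ell2 (Γ × ι)), cav (c k) T (ep b)⟫_ℂ).re) U
      (𝓝 (⟪(ep b : Ell2 (Γ × ι)), wl U (fun k => cav (c k) T) (ep b)⟫_ℂ).re) := by
    intro T
    exact (Complex.continuous_re.tendsto _).comp
      (wl_spec U (fun k => cav_norm (c k) T) (ep b) (ep b))
  obtain ⟨ν, hν⟩ : ∃ ν : (Ell2 (Γ × ι) →L[ℂ] Ell2 (Γ × ι)) →ₗ[ℝ] ℝ, ∀ T, ν T =
      t⁻¹ * (⟪(ep b : Ell2 (Γ × ι)), wl U (fun k => cav (c k) T) (ep b)⟫_ℂ).re := by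
    refine ⟨⟨⟨fun T => t⁻¹ * (⟪(ep b : Ell2 (Γ × ι)), wl U (fun k => cav (c k) T) (ep b)⟫_ℂ).re,
      fun S T => ?_⟩, fun r T => ?_⟩, fun T => rfl⟩
    · rw [← mul_add]
      refine congrArg (fun r => t⁻¹ * r) ?_
      refine tendsto_nhds_unique (hlim (S + T)) (((hlim S).add (hlim T)).congr fun k => ?_)
      rw [cav_add, add_apply, inner_add_right, Complex.add_re]
    · change t⁻¹ * (⟪(ep b : Ell2 (Γ × ι)), wl U (fun k => cav (c k) (r • T)) (ep b)⟫_ℂ).re =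
        r * (t⁻¹ * (⟪(ep b : Ell2 (Γ × ι)), wl U (fun k => cav (c k) T) (ep b)⟫_ℂ).re)
      have hr : r • T = (r : ℂ) • T := by
        ext ξ x
        change r • (T ξ x) = (r : ℂ) * (T ξ x)
        rw [Complex.real_smul]
      rw [mul_left_comm, hr]
      refine congrArg (fun r => t⁻¹ * r) ?_
      refine tendsto_nhds_unique (hlim ((r : ℂ) • T)) (((hlim T).const_mul r).congr fun k => ?_)
      rw [cav_smul, smul_apply, inner_smul_right, Complex.re_ofReal_mul]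
  refine ⟨ν, fun T hT => ?_, ?_, fun T hT hTP s => ?_⟩
  · rw [hν]
    refine mul_nonneg (inv_nonneg.mpr hR.pos.le) ?_
    exact ge_of_tendsto' (hlim T) fun k => cav_pos (c k) hT _
  · rw [hν]
    have h1 : Tendsto (fun k => (⟪(ep b : Ell2 (Γ × ι)), cav (c k) (R 1) (ep b)⟫_ℂ).re) U
        (𝓝 t) := by
      have h2 : Tendsto (fun k : ℕ => 1 / ((k : ℝ) + 1)) U (𝓝 0) :=
        (tendsto_one_div_add_atTop_nhds_zero_nat).mono_left hUat
      rw [tendsto_iff_norm_sub_tendsto_zero]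
      refine squeeze_zero (fun k => norm_nonneg _) (fun k => ?_) h2
      have h3 : (⟪(ep b : Ell2 (Γ × ι)), cav (c k) (R 1) (ep b)⟫_ℂ).re - t =
          (⟪(ep b : Ell2 (Γ × ι)), cav (c k) (R 1) (ep b) - (t : ℂ) • ep b⟫_ℂ).re := by
        rw [inner_sub_right, inner_smul_right, Complex.sub_re, inner_self_eq_norm_sq_to_K, ep,
          norm_dl]
        simp
      rw [h3, Real.norm_eq_abs]
      refine (Complex.abs_re_le_norm _).trans ((norm_inner_le_norm _ _).trans ?_)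
      rw [show ‖(ep b : Ell2 (Γ × ι))‖ = 1 by rw [ep, norm_dl], one_mul]
      exact (hc k).le
    rw [tendsto_nhds_unique (hlim (R 1)) h1, inv_mul_cancel₀ hR.pos.ne']
  · rw [hν, hν]
    obtain ⟨T', hT'⟩ : ∃ T', T' = lx s * T * lx s⁻¹ := ⟨_, rfl⟩
    rw [← hT']
    refine congrArg (fun r => t⁻¹ * r) ?_
    have h1 : Tendsto (fun k => (⟪(ep b : Ell2 (Γ × ι)), cav (c k) T (ep b)⟫_ℂ).re -
        (⟪(ep b : Ell2 (Γ × ι)), cav (c k) T' (ep b)⟫_ℂ).re) U (𝓝 0) := by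
      have h2 : Tendsto (fun k : ℕ => t⁻¹ * (2 * (1 / ((k : ℝ) + 1)) *
          ((Fintype.card ι : ℝ) * (Fintype.card ι : ℝ) * ‖T‖))) U (𝓝 0) := by
        have h3 : Tendsto (fun k : ℕ => 1 / ((k : ℝ) + 1)) U (𝓝 0) :=
          (tendsto_one_div_add_atTop_nhds_zero_nat).mono_left hUat
        have h4 := ((h3.const_mul 2).mul_const
          ((Fintype.card ι : ℝ) * (Fintype.card ι : ℝ) * ‖T‖)).const_mul t⁻¹
        simpa using h4
      rw [tendsto_zero_iff_norm_tendsto_zero]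
      refine squeeze_zero (fun k => norm_nonneg _) (fun k => ?_) h2
      rw [← Complex.sub_re, Real.norm_eq_abs]
      refine (Complex.abs_re_le_norm _).trans ?_
      rw [le_inv_mul_iff₀ hR.pos]
      have h5 := cav_inv hR hT hTP b (c k) (hc k).le s
      rw [← hT'] at h5
      rwa [norm_mul, Complex.norm_real, Real.norm_of_nonneg hR.pos.le] at h5
    have h2 := (hlim T).sub (hlim T')
    have h3 := tendsto_nhds_unique h2 h1
    linarith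

/-- **Block [S7](a)**. -/
theorem exists_nu (hΓ : ∀ g : Γ, g ≠ 1 → Set.Infinite {y | ∃ h, y = h * g * h⁻¹})
    (hR : AFrame t R) :
    ∃ ν : (Ell2 (Γ × ι) →L[ℂ] Ell2 (Γ × ι)) →ₗ[ℝ] ℝ, (∀ T, 0 ≤ T → 0 ≤ ν T) ∧ ν (R 1) = 1 ∧
      ∀ T, (∀ v, T * R v = R v * T) → T * R 1 = T → ∀ s, ν (lx s * T * lx s⁻¹) = ν T := by
  obtain ⟨ν, h1, h2, h3⟩ := exists_nu' hΓ hR
  refine ⟨ν, fun T hT => h1 T fun ξ => ?_, h2, h3⟩
  rw [nonneg_iff_isPositive] at hT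
  have := hT.inner_nonneg_right ξ
  exact (Complex.le_def.mp this).1

end func

end Vale.Agent.P092.H432
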