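import Vale.Agent.P092.H432.PiA

/-!
P092 (helper432), stage (S): an amplified frame is weakly contained in the regular representation,
also with operator coefficients: `‖∑ R_v ⊗ p_v‖ ≤ ‖∑ ρ_v ⊗ p_v‖ ≤ ‖∑ a_v ρ_v‖` if `‖p_v‖ ≤ a_v`.
-/

set_option linter.all false

open scoped InnerProductSpace
open Filter Topology ContinuousLinearMap

namespace Vale.Agent.P092.H432

open Vale.Agent.P092.H160 Vale.Agent.P092.H553

/-! ### The growth argument -/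

section growth

variable {H : Type} [NormedAddCommGroup H] [InnerProductSpace ℂ H] [CompleteSpace H]

theorem growth {A : H →L[ℂ] H} (hA : adjoint A = A) {q C : ℝ} (hq : 0 ≤ q) {ξ : H}
    (h : ∀ n : ℕ, ‖(A ^ n) ξ‖ ≤ C * q ^ n) : ‖A ξ‖ ≤ q * ‖ξ‖ := by
  by_contra hlt
  push Not at hlt
  obtain ⟨m, hm⟩ : ∃ m : ℕ → ℝ, m = fun n => ‖(A ^ n) ξ‖ := ⟨_, rfl⟩
  have hm0 : m 0 = ‖ξ‖ := by rw [hm]; simp
  have hm1 : m 1 = ‖A ξ‖ := by rw [hm]; simp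
  have hmn : ∀ n, 0 ≤ m n := fun n => by rw [hm]; exact norm_nonneg _
  have hconv : ∀ n, m (n + 1) ^ 2 ≤ m n * m (n + 2) := by
    intro n
    have e1 : ⟪(A ^ (n + 1)) ξ, (A ^ (n + 1)) ξ⟫_ℂ = ⟪(A ^ n) ξ, (A ^ (n + 2)) ξ⟫_ℂ := by
      have e2 : (A ^ (n + 1)) ξ = A ((A ^ n) ξ) := by rw [pow_succ']; rfl
      have e3 : (A ^ (n + 2)) ξ = A ((A ^ (n + 1)) ξ) := by rw [pow_succ']; rfl
      rw [e3]
      conv_lhs => rw [e2]
      rw [← adjoint_inner_right, hA, ← e2]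
    rw [inner_self_eq_norm_sq_to_K] at e1
    have e4 : ((‖(A ^ (n + 1)) ξ‖ ^ 2 : ℝ) : ℂ) = ⟪(A ^ n) ξ, (A ^ (n + 2)) ξ⟫_ℂ := by
      rw [← e1]; norm_cast
    have e5 : ‖((‖(A ^ (n + 1)) ξ‖ ^ 2 : ℝ) : ℂ)‖ ≤ ‖(A ^ n) ξ‖ * ‖(A ^ (n + 2)) ξ‖ := by
      rw [e4]; exact norm_inner_le_norm _ _
    rw [Complex.norm_real, Real.norm_of_nonneg (by positivity)] at e5
    rw [hm]
    exact e5
  have h0 : 0 < m 0 := by
    rcases (hmn 0).eq_or_lt with h0 | h0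
    · exfalso
      rw [hm0] at h0
      have : ξ = 0 := norm_eq_zero.mp h0.symm
      rw [this, map_zero, norm_zero, mul_zero] at hlt
      exact lt_irrefl _ hlt
    · exact h0
  obtain ⟨r, hr⟩ : ∃ r : ℝ, r = m 1 / m 0 := ⟨_, rfl⟩
  have hqr : q < r := by
    rw [hr, lt_div_iff₀ h0, hm0, hm1]; exact hlt
  have hr0 : 0 < r := hq.trans_lt hqr
  have hstep : ∀ n, 0 < m n ∧ r * m n ≤ m (n + 1) := by
    intro n
    induction n with
    | zero =>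
      refine ⟨h0, ?_⟩
      rw [hr, div_mul_cancel₀ _ h0.ne']
    | succ n ih =>
      obtain ⟨ih1, ih2⟩ := ih
      have h1 : 0 < m (n + 1) := lt_of_lt_of_le (mul_pos hr0 ih1) ih2
      refine ⟨h1, ?_⟩
      have h2 := hconv n
      have h3 : r * m n * m (n + 1) ≤ m n * m (n + 2) := by
        calc r * m n * m (n + 1) ≤ m (n + 1) * m (n + 1) := by gcongr
          _ = m (n + 1) ^ 2 := by ring
          _ ≤ _ := h2
      have h4 : m n * (r * m (n + 1)) ≤ m n * m (n + 2) := by linarith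
      exact le_of_mul_le_mul_left h4 ih1
  have hpow : ∀ n, r ^ n * m 0 ≤ m n := by
    intro n
    induction n with
    | zero => rw [pow_zero, one_mul]
    | succ n ih =>
      calc r ^ (n + 1) * m 0 = r * (r ^ n * m 0) := by ring
        _ ≤ r * m n := by gcongr
        _ ≤ _ := (hstep n).2
  have hbound : ∀ n : ℕ, r ^ n * m 0 ≤ C * q ^ n := fun n => by
    refine (hpow n).trans ?_
    rw [hm]; exact h n
  have hlim : Tendsto (fun n : ℕ => C * (q / r) ^ n) atTop (𝓝 (C * 0)) :=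
    (tendsto_pow_atTop_nhds_zero_of_lt_one (by positivity) ((div_lt_one hr0).mpr hqr)).const_mul C
  rw [mul_zero] at hlim
  obtain ⟨n, hn⟩ := (hlim.eventually (gt_mem_nhds h0)).exists
  have h5 := hbound n
  rw [div_pow, mul_div_assoc', div_lt_iff₀ (by positivity)] at hn
  nlinarith

theorem growth_norm {A : H →L[ℂ] H} (hA : adjoint A = A) {q : ℝ} (hq : 0 ≤ q) {D : Set H}
    (hD : Dense (Submodule.span ℂ D : Set H))
    (h : ∀ ξ ∈ D, ∃ C : ℝ, ∀ n : ℕ, ‖(A ^ n) ξ‖ ≤ C * q ^ n) : ‖A‖ ≤ q := by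
  have h1 : ∀ ξ ∈ Submodule.span ℂ D, ∃ C : ℝ, 0 ≤ C ∧ ∀ n : ℕ, ‖(A ^ n) ξ‖ ≤ C * q ^ n := by
    intro ξ hξ
    refine Submodule.span_induction ?_ ?_ ?_ ?_ hξ
    · intro x hx
      obtain ⟨C, hC⟩ := h x hx
      refine ⟨|C|, abs_nonneg _, fun n => (hC n).trans ?_⟩
      have := le_abs_self C
      gcongr
    · exact ⟨0, le_rfl, fun n => by simp⟩
    · rintro x y _ _ ⟨C, hC0, hC⟩ ⟨D, hD0, hD⟩
      refine ⟨C + D, add_nonneg hC0 hD0, fun n => ?_⟩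
      rw [map_add, add_mul]
      exact (norm_add_le _ _).trans (add_le_add (hC n) (hD n))
    · rintro c x _ ⟨C, hC0, hC⟩
      refine ⟨‖c‖ * C, by positivity, fun n => ?_⟩
      rw [map_smul, norm_smul, mul_assoc]
      have := hC n
      gcongr
  refine ContinuousLinearMap.opNorm_le_bound _ hq fun ξ => ?_
  have hcl : IsClosed {x : H | ‖A x‖ ≤ q * ‖x‖} := isClosed_le (by fun_prop) (by fun_prop)
  have : (Submodule.span ℂ D : Set H) ⊆ {x : H | ‖A x‖ ≤ q * ‖x‖} := by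
    intro x hx
    obtain ⟨C, _, hC⟩ := h1 x hx
    exact growth hA hq hC
  exact hcl.closure_subset_iff.mpr this (hD ξ)

end growth

/-! ### Pairs of operators with the same moments -/

section pairs

variable {Γ Λ ι : Type} [Group Γ] [Group Λ] [Fintype ι] {t : ℝ}
  {R : Λ → (Ell2 (Γ × ι) →L[ℂ] Ell2 (Γ × ι))}

/-- the linear span of the pairs `(R_v ⊗ q, ρ_v ⊗ q)` -/
noncomputable def PS (R : Λ → (Ell2 (Γ × ι) →L[ℂ] Ell2 (Γ × ι))) (Y : Type) :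
    Submodule ℂ ((Ell2 ((Γ × ι) × Y) →L[ℂ] Ell2 ((Γ × ι) × Y)) ×
      (Ell2 (Λ × Y) →L[ℂ] Ell2 (Λ × Y))) :=
  Submodule.span ℂ {z | ∃ (v : Λ) (q : Ell2 Y →L[ℂ] Ell2 Y), z = (tens (R v) q, tens (rho v) q)}

variable {Y : Type}

theorem ps_mem (v : Λ) (q : Ell2 Y →L[ℂ] Ell2 Y) :
    ((tens (R v) q, tens (rho v) q) : (Ell2 ((Γ × ι) × Y) →L[ℂ] Ell2 ((Γ × ι) × Y)) ×
      (Ell2 (Λ × Y) →L[ℂ] Ell2 (Λ × Y))) ∈ PS R Y := Submodule.subset_span ⟨v, q, rfl⟩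

variable (hR : ARep t R)

include hR

theorem ps_mul {z w : (Ell2 ((Γ × ι) × Y) →L[ℂ] Ell2 ((Γ × ι) × Y)) ×
      (Ell2 (Λ × Y) →L[ℂ] Ell2 (Λ × Y))} (hz : z ∈ PS R Y) (hw : w ∈ PS R Y) :
    z * w ∈ PS R Y := by
  refine Submodule.span_induction₂ (p := fun z w _ _ => z * w ∈ PS R Y) ?_ ?_ ?_ ?_ ?_ ?_ ?_ hz hw
  · rintro _ _ ⟨v, q, rfl⟩ ⟨v', q', rfl⟩
    have h1 : ((tens (R v) q, tens (rho v) q) : (Ell2 ((Γ × ι) × Y) →L[ℂ] Ell2 ((Γ × ι) × Y)) ×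
        (Ell2 (Λ × Y) →L[ℂ] Ell2 (Λ × Y))) * (tens (R v') q', tens (rho v') q') =
        (tens (R (v * v')) (q * q'), tens (rho (v * v')) (q * q')) := by
      rw [Prod.mk_mul_mk, ← tens_mul, ← tens_mul, ← hR.mul, ← rho_mul]
    rw [h1]
    exact ps_mem _ _
  · intro w _; rw [zero_mul]; exact zero_mem _
  · intro z _; rw [mul_zero]; exact zero_mem _
  · intro x y z _ _ _ h1 h2; rw [add_mul]; exact add_mem h1 h2
  · intro x y z _ _ _ h1 h2; rw [mul_add]; exact add_mem h1 h2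
  · intro c x y _ _ h1; rw [smul_mul_assoc]; exact Submodule.smul_mem _ _ h1
  · intro c x y _ _ h1; rw [mul_smul_comm]; exact Submodule.smul_mem _ _ h1

theorem ps_star {z : (Ell2 ((Γ × ι) × Y) →L[ℂ] Ell2 ((Γ × ι) × Y)) ×
      (Ell2 (Λ × Y) →L[ℂ] Ell2 (Λ × Y))} (hz : z ∈ PS R Y) :
    (adjoint z.1, adjoint z.2) ∈ PS R Y := by
  refine Submodule.span_induction ?_ ?_ ?_ ?_ hz
  · rintro _ ⟨v, q, rfl⟩
    rw [adjoint_tens, adjoint_tens, hR.adj, adjoint_rho]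
    exact ps_mem _ _
  · simp only [Prod.fst_zero, Prod.snd_zero, map_zero]
    exact zero_mem _
  · intro x y _ _ h1 h2
    have := add_mem h1 h2
    rwa [Prod.mk_add_mk, ← map_add, ← map_add] at this
  · intro c x _ h1
    have h2 := Submodule.smul_mem _ ((starRingEnd ℂ) c) h1
    rw [Prod.smul_mk] at h2
    have e1 : adjoint (c • x).1 = (starRingEnd ℂ) c • adjoint x.1 := by
      rw [Prod.smul_fst, LinearIsometryEquiv.map_smulₛₗ]
    have e2 : adjoint (c • x).2 = (starRingEnd ℂ) c • adjoint x.2 := by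
      rw [Prod.smul_snd, LinearIsometryEquiv.map_smulₛₗ]
    rw [e1, e2]
    exact h2

theorem ps_tr {z : (Ell2 ((Γ × ι) × Y) →L[ℂ] Ell2 ((Γ × ι) × Y)) ×
      (Ell2 (Λ × Y) →L[ℂ] Ell2 (Λ × Y))} (hz : z ∈ PS R Y) (s : Γ) (ζ : Ell2 Y) :
    ∑ i, ⟪tv (lx s (ep i) : Ell2 (Γ × ι)) ζ, z.1 (tv (lx s (ep i)) ζ)⟫_ℂ =
      t * ⟪tv (dl 1 : Ell2 Λ) ζ, z.2 (tv (dl 1) ζ)⟫_ℂ := by
  classical
  refine Submodule.span_induction ?_ ?_ ?_ ?_ hz
  · rintro _ ⟨v, q, rfl⟩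
    simp only [tens_tv, inner_tv, hR.lx, inner_lx]
    rw [← Finset.sum_mul]
    have h1 := hR.tr_eq v
    rw [trA] at h1
    rw [h1, inner_dl, rho_dl, one_mul, dl_apply]
    by_cases hv : v = 1
    · subst hv; simp
    · have : ¬ (1 : Λ) = v⁻¹ := fun h => hv (by rw [eq_comm, inv_eq_one] at h; exact h)
      rw [if_neg hv, if_neg this]; simp
  · simp
  · intro x y _ _ h1 h2
    simp only [Prod.fst_add, Prod.snd_add, add_apply, inner_add_right, Finset.sum_add_distrib,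
      h1, h2]
    ring
  · intro c x _ h1
    simp only [Prod.smul_fst, Prod.smul_snd, smul_apply, inner_smul_right, ← Finset.mul_sum, h1]
    ring

theorem gap_tens (s : Finset Λ) (p : Λ → (Ell2 Y →L[ℂ] Ell2 Y)) :
    ‖∑ v ∈ s, tens (R v) (p v)‖ ≤ ‖∑ v ∈ s, tens (rho v) (p v)‖ := by
  obtain ⟨X, hX⟩ : ∃ X, X = ∑ v ∈ s, tens (R v) (p v) := ⟨_, rfl⟩
  obtain ⟨Z, hZ⟩ : ∃ Z : Ell2 (Λ × Y) →L[ℂ] Ell2 (Λ × Y), Z = ∑ v ∈ s, tens (rho v) (p v) :=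
    ⟨_, rfl⟩
  rw [← hX, ← hZ]
  have hXZ : (X, Z) ∈ PS R Y := by
    have h1 : (X, Z) = ∑ v ∈ s, ((tens (R v) (p v), tens (rho v) (p v)) :
        (Ell2 ((Γ × ι) × Y) →L[ℂ] Ell2 ((Γ × ι) × Y)) × (Ell2 (Λ × Y) →L[ℂ] Ell2 (Λ × Y))) := by
      refine Prod.ext ?_ ?_
      · rw [Prod.fst_sum, hX]
      · rw [Prod.snd_sum, hZ]
    rw [h1]
    exact Submodule.sum_mem _ fun v _ => ps_mem v (p v)
  obtain ⟨A, hA⟩ : ∃ A, A = adjoint X * X := ⟨_, rfl⟩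
  obtain ⟨B, hB⟩ : ∃ B, B = adjoint Z * Z := ⟨_, rfl⟩
  have hAB : (A, B) ∈ PS R Y := by
    have := ps_mul hR (ps_star hR hXZ) hXZ
    rw [hA, hB]; exact this
  have hpow : ∀ n : ℕ, (A ^ (n + 1), B ^ (n + 1)) ∈ PS R Y := by
    intro n
    induction n with
    | zero => simpa using hAB
    | succ n ih =>
      have := ps_mul hR ih hAB
      rw [Prod.mk_mul_mk, ← pow_succ, ← pow_succ] at this
      exact this
  have hAs : adjoint A = A := by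
    rw [hA, ← star_eq_adjoint, star_mul, star_eq_adjoint, star_eq_adjoint, adjoint_adjoint]
  have hAn : ∀ n : ℕ, adjoint (A ^ n) = A ^ n := by
    intro n
    rw [← star_eq_adjoint, star_pow, star_eq_adjoint, hAs]
  have hBn : ‖B‖ = ‖Z‖ ^ 2 := by
    rw [hB, ← star_eq_adjoint, CStarRing.norm_star_mul_self, sq]
  have hAnorm : ‖A‖ = ‖X‖ ^ 2 := by
    rw [hA, ← star_eq_adjoint, CStarRing.norm_star_mul_self, sq]
  have ht := hR.pos
  -- moments of `A`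
  have hmom : ∀ (n : ℕ) (a : Γ) (i : ι) (y : Y),
      ‖(A ^ n) (tv (lx a (ep i) : Ell2 (Γ × ι)) (dl y))‖ ≤ (1 + Real.sqrt t) * (‖Z‖ ^ 2) ^ n := by
    intro n a i y
    rcases Nat.eq_zero_or_pos n with rfl | hn
    · rw [pow_zero, pow_zero, mul_one, one_apply_eq_self, norm_tv, norm_lx, ep, norm_dl, norm_dl]
      have := Real.sqrt_nonneg t
      linarith
    · obtain ⟨m, rfl⟩ : ∃ m, n = m + 1 := ⟨n - 1, by omega⟩
      have h1 : ∀ j, ⟪tv (lx a (ep j) : Ell2 (Γ × ι)) (dl y),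
          (A ^ (m + 1 + m + 1)) (tv (lx a (ep j)) (dl y))⟫_ℂ =
          ((‖(A ^ (m + 1)) (tv (lx a (ep j) : Ell2 (Γ × ι)) (dl y))‖ ^ 2 : ℝ) : ℂ) := by
        intro j
        have e1 : A ^ (m + 1 + m + 1) = A ^ (m + 1) * A ^ (m + 1) := by
          rw [← pow_add, ← add_assoc]
        rw [e1, mul_ap, ← adjoint_inner_left, hAn, inner_self_eq_norm_sq_to_K]
        norm_cast
      have h2 := ps_tr hR (hpow (m + 1 + m)) a (dl y)
      simp only [h1] at h2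
      rw [← Complex.ofReal_sum] at h2
      have h3 : ∑ j, ‖(A ^ (m + 1)) (tv (lx a (ep j) : Ell2 (Γ × ι)) (dl y))‖ ^ 2 ≤
          t * (‖Z‖ ^ 2) ^ (m + 1 + m + 1) := by
        have e2 : ‖((∑ j, ‖(A ^ (m + 1)) (tv (lx a (ep j) : Ell2 (Γ × ι)) (dl y))‖ ^ 2 : ℝ) : ℂ)‖ ≤
            t * (‖Z‖ ^ 2) ^ (m + 1 + m + 1) := by
          rw [h2, norm_mul, Complex.norm_real, Real.norm_of_nonneg ht.le]
          refine mul_le_mul_of_nonneg_left ?_ ht.le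
          refine (norm_inner_le_norm _ _).trans ?_
          rw [norm_tv, norm_dl, norm_dl, _root_.one_mul, _root_.one_mul]
          refine ((B ^ (m + 1 + m + 1)).le_opNorm _).trans ?_
          rw [norm_tv, norm_dl, norm_dl, _root_.one_mul, _root_.mul_one, ← hBn]
          exact norm_pow_le' _ (Nat.succ_pos _)
        rwa [Complex.norm_real, Real.norm_of_nonneg (Finset.sum_nonneg fun j _ => by positivity)]
          at e2
      have h4 : ‖(A ^ (m + 1)) (tv (lx a (ep i) : Ell2 (Γ × ι)) (dl y))‖ ^ 2 ≤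
          t * (‖Z‖ ^ 2) ^ (m + 1 + m + 1) :=
        (Finset.single_le_sum (f := fun j =>
          ‖(A ^ (m + 1)) (tv (lx a (ep j) : Ell2 (Γ × ι)) (dl y))‖ ^ 2)
          (fun j _ => by positivity) (Finset.mem_univ i)).trans h3
      have h5 : t * (‖Z‖ ^ 2) ^ (m + 1 + m + 1) = (Real.sqrt t * (‖Z‖ ^ 2) ^ (m + 1)) ^ 2 := by
        have e9 : 2 * (m + 1 + m + 1) = 2 * ((m + 1) * 2) := by ring
        rw [mul_pow, Real.sq_sqrt ht.le, ← pow_mul, ← pow_mul, ← pow_mul, e9]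
      rw [h5] at h4
      have h6 := abs_le_of_sq_le_sq' h4 (by positivity) |>.2
      refine h6.trans ?_
      have : Real.sqrt t ≤ 1 + Real.sqrt t := by linarith
      gcongr
  have hfin : ‖A‖ ≤ ‖Z‖ ^ 2 := by
    refine growth_norm hAs (by positivity) (D := Set.range fun x : (Γ × ι) × Y => dl x) ?_ ?_
    · intro ξ
      have h1 : HasSum (fun x => ξ x • (dl x : Ell2 ((Γ × ι) × Y))) ξ := hasSum_dl ξ
      refine mem_closure_of_tendsto h1 (Eventually.of_forall fun s => ?_)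
      exact Submodule.sum_mem _ fun x _ => Submodule.smul_mem _ _ (Submodule.subset_span ⟨x, rfl⟩)
    · rintro _ ⟨⟨⟨a, i⟩, y⟩, rfl⟩
      refine ⟨1 + Real.sqrt t, fun n => ?_⟩
      have h1 : (dl ((a, i), y) : Ell2 ((Γ × ι) × Y)) = tv (lx a (ep i)) (dl y) := by
        rw [lx_ep, ← dl_prod]
      simp only [h1]
      exact hmom n a i y
  rw [hAnorm] at hfin
  exact abs_le_of_sq_le_sq' hfin (norm_nonneg _) |>.2

end pairs

/-! ### Operator coefficients of the regular representation -/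

section coef

variable {Λ Y : Type} [Group Λ]

theorem sl_tens_rho (v : Λ) (q : Ell2 Y →L[ℂ] Ell2 Y) (f : Ell2 (Λ × Y)) (w : Λ) :
    sl (tens (rho v) q f) w = q (sl f (w * v)) := by
  change sl (ampL Y (rho v) (ampR Λ q f)) w = _
  apply ext_inner_dl
  intro y
  change (rho v (sl (sw (ampR Λ q f)) y)) w = _
  rw [rho_apply]
  rfl

/-- `‖∑ ρ_v ⊗ p_v‖ ≤ ‖∑ a_v ρ_v‖` if `‖p_v‖ ≤ a_v`. -/
theorem norm_tens_rho_le (s : Finset Λ) (p : Λ → (Ell2 Y →L[ℂ] Ell2 Y)) (a : Λ → ℝ)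
    (h : ∀ v ∈ s, ‖p v‖ ≤ a v) :
    ‖∑ v ∈ s, tens (rho v) (p v)‖ ≤ ‖∑ v ∈ s, (a v : ℂ) • (rho v : Ell2 Λ →L[ℂ] Ell2 Λ)‖ := by
  refine ContinuousLinearMap.opNorm_le_bound _ (norm_nonneg _) fun f => ?_
  -- the norms of the slices
  have hsum : Summable fun w => ‖((‖sl f w‖ : ℝ) : ℂ)‖ ^ 2 := by
    refine (hasSum_sl f).summable.congr fun w => ?_
    rw [Complex.norm_real, norm_norm]
  obtain ⟨g, hg⟩ : ∃ g : Ell2 Λ, ∀ w, g w = ((‖sl f w‖ : ℝ) : ℂ) := ⟨mk2 _ hsum, fun w => rfl⟩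
  have hgn : ‖g‖ = ‖f‖ := by
    have h1 : ‖g‖ ^ 2 = ‖f‖ ^ 2 := by
      rw [norm_sq, ← (hasSum_sl f).tsum_eq]
      refine tsum_congr fun w => ?_
      rw [hg, Complex.norm_real, norm_norm]
    exact (pow_left_inj₀ (norm_nonneg _) (norm_nonneg _) two_ne_zero).mp h1
  have hle : ∀ w, ‖sl ((∑ v ∈ s, tens (rho v) (p v)) f) w‖ ≤
      ‖((∑ v ∈ s, (a v : ℂ) • (rho v : Ell2 Λ →L[ℂ] Ell2 Λ)) g : Ell2 Λ) w‖ := by
    intro w
    have e1 : sl ((∑ v ∈ s, tens (rho v) (p v)) f) w = ∑ v ∈ s, p v (sl f (w * v)) := by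
      rw [ContinuousLinearMap.sum_apply]
      have : ∀ (s : Finset Λ), sl (∑ v ∈ s, tens (rho v) (p v) f) w =
          ∑ v ∈ s, p v (sl f (w * v)) := by
        intro s
        classical
        induction s using Finset.induction_on with
        | empty =>
          rw [Finset.sum_empty, Finset.sum_empty]; rfl
        | insert v s hv ih =>
          rw [Finset.sum_insert hv, Finset.sum_insert hv, sl_add, sl_tens_rho, ih]
      exact this s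
    have e2 : ((∑ v ∈ s, (a v : ℂ) • (rho v : Ell2 Λ →L[ℂ] Ell2 Λ)) g : Ell2 Λ) w =
        ((∑ v ∈ s, a v * ‖sl f (w * v)‖ : ℝ) : ℂ) := by
      rw [ContinuousLinearMap.sum_apply]
      have h1 : (∑ v ∈ s, ((a v : ℂ) • (rho v : Ell2 Λ →L[ℂ] Ell2 Λ)) g : Ell2 Λ) w =
          ∑ v ∈ s, (((a v : ℂ) • (rho v : Ell2 Λ →L[ℂ] Ell2 Λ)) g : Ell2 Λ) w := by
        rw [lp.coeFn_sum, Finset.sum_apply]
      rw [h1]
      push_cast
      refine Finset.sum_congr rfl fun v _ => ?_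
      have h2 : ∀ (c : ℂ) (T : Ell2 Λ →L[ℂ] Ell2 Λ), ((c • T) g : Ell2 Λ) w = c * (T g) w :=
        fun c T => rfl
      have h3 := h2 (a v : ℂ) (rho v)
      rw [rho_apply, hg] at h3
      exact h3
    rw [e1, e2, Complex.norm_real]
    refine (norm_sum_le _ _).trans (le_trans ?_ (le_abs_self _))
    refine Finset.sum_le_sum fun v hv => ((p v).le_opNorm _).trans ?_
    have := h v hv
    gcongr
  rw [← hgn]
  refine le_trans ?_ ((∑ v ∈ s, (a v : ℂ) • (rho v : Ell2 Λ →L[ℂ] Ell2 Λ)).le_opNorm g)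
  refine abs_le_of_sq_le_sq' ?_ (norm_nonneg _) |>.2
  rw [← (hasSum_sl ((∑ v ∈ s, tens (rho v) (p v)) f)).tsum_eq, norm_sq]
  refine Summable.tsum_le_tsum (fun w => ?_) (hasSum_sl _).summable (summable_sq _)
  have := hle w
  gcongr

end coef

/-- An amplified frame with contractive coefficients is controlled by the regular
representation. -/
theorem gap_coef {Γ Λ ι Y : Type} [Group Γ] [Group Λ] [Fintype ι] {t : ℝ}
    {R : Λ → (Ell2 (Γ × ι) →L[ℂ] Ell2 (Γ × ι))} (hR : ARep t R) (s : Finset Λ)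
    (p : Λ → (Ell2 Y →L[ℂ] Ell2 Y)) (a : Λ → ℝ) (h : ∀ v ∈ s, ‖p v‖ ≤ a v) :
    ‖∑ v ∈ s, tens (R v) (p v)‖ ≤
      ‖∑ v ∈ s, (a v : ℂ) • (rho v : Ell2 Λ →L[ℂ] Ell2 Λ)‖ :=
  (gap_tens hR s p).trans (norm_tens_rho_le s p a h)

end Vale.Agent.P092.H432
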