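import Vale.Agent.P092.H432.PiA
import Vale.Agent.P092.H538.S6
import Vale.Agent.P092.H859.Main

/-!
P092 (helper432): from asymptotically covariant families of operators to invariant means, in the
row model (port of helper859's `mean_of_maps`, with a second finite index).
-/

set_option linter.all false

open scoped InnerProductSpace
open Filter Topology ContinuousLinearMap

namespace Vale.Agent.P092.H432

open Vale.Agent.P092.H160 Vale.Agent.P092.H553 Vale.Agent.P092.H859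

section

variable {Γ Λ ι κ : Type} [Group Γ] [Group Λ] [Fintype ι] {t : ℝ}
  {R : Λ → (Ell2 (Γ × ι) →L[ℂ] Ell2 (Γ × ι))}
  {E : Set Λ → (Ell2 (Γ × ι) →L[ℂ] Ell2 (Γ × ι))}

/-- Families of operators with finitely many members, of row norm at most one. -/
structure FamA (B : ℕ → Finset Γ) (J : ℕ → Finset κ)
    (P : ℕ → Γ → κ → (Ell2 (Γ × ι) →L[ℂ] Ell2 (Γ × ι))) : Prop where
  off : ∀ n b j, b ∉ B n → P n b j = 0
  bdd : ∀ n (ξ : Ell2 (Γ × ι)), ∑ b ∈ B n, ∑ j ∈ J n, ‖P n b j ξ‖ ^ 2 ≤ ‖ξ‖ ^ 2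

/-- Asymptotic left covariance. -/
def CovA (U : Ultrafilter ℕ) (B : ℕ → Finset Γ) (J : ℕ → Finset κ)
    (P : ℕ → Γ → κ → (Ell2 (Γ × ι) →L[ℂ] Ell2 (Γ × ι))) : Prop :=
  ∀ (s : Γ) (ξ : Ell2 (Γ × ι)), Tendsto (fun n => ∑ b ∈ BB (B n) s, ∑ j ∈ J n,
    ‖P n (s * b) j ξ - lx s (P n b j (lx s⁻¹ ξ))‖ ^ 2) U (𝓝 0)

/-- The lower bound. -/
def LowA (R : Λ → (Ell2 (Γ × ι) →L[ℂ] Ell2 (Γ × ι))) (K : Subgroup Λ) (U : Ultrafilter ℕ)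
    (B : ℕ → Finset Γ) (J : ℕ → Finset κ) (Y P : ℕ → Γ → κ → (Ell2 (Γ × ι) →L[ℂ] Ell2 (Γ × ι)))
    (c : ℝ) : Prop :=
  ∀ u ∈ K, ∀ᶠ n in U, c ≤ (∑ b ∈ B n, ∑ j ∈ J n, ∑ i : ι,
    ⟪Y n b j (R u (ep i)), P n b j (R u (ep i))⟫_ℂ).re

/-- The midpoint of two families. -/
noncomputable def midA (P Q : ℕ → Γ → κ → (Ell2 (Γ × ι) →L[ℂ] Ell2 (Γ × ι))) :
    ℕ → Γ → κ → (Ell2 (Γ × ι) →L[ℂ] Ell2 (Γ × ι)) :=
  fun n b j => (1 / 2 : ℂ) • (P n b j + Q n b j)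

theorem midA_apply (P Q : ℕ → Γ → κ → (Ell2 (Γ × ι) →L[ℂ] Ell2 (Γ × ι))) (n : ℕ) (b : Γ) (j : κ)
    (ξ : Ell2 (Γ × ι)) : midA P Q n b j ξ = (1 / 2 : ℂ) • (P n b j ξ + Q n b j ξ) := rfl

/-- Conjugation by the right multiplications. -/
noncomputable def actA (R : Λ → (Ell2 (Γ × ι) →L[ℂ] Ell2 (Γ × ι))) (u : Λ)
    (P : ℕ → Γ → κ → (Ell2 (Γ × ι) →L[ℂ] Ell2 (Γ × ι))) :
    ℕ → Γ → κ → (Ell2 (Γ × ι) →L[ℂ] Ell2 (Γ × ι)) :=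
  fun n b j => R u⁻¹ * P n b j * R u

theorem actA_apply (u : Λ) (P : ℕ → Γ → κ → (Ell2 (Γ × ι) →L[ℂ] Ell2 (Γ × ι))) (n : ℕ) (b : Γ)
    (j : κ) (ξ : Ell2 (Γ × ι)) : actA R u P n b j ξ = R u⁻¹ (P n b j (R u ξ)) := rfl

/-- Multiplication from the left only. -/
noncomputable def lefA (R : Λ → (Ell2 (Γ × ι) →L[ℂ] Ell2 (Γ × ι))) (u : Λ)
    (P : ℕ → Γ → κ → (Ell2 (Γ × ι) →L[ℂ] Ell2 (Γ × ι))) :
    ℕ → Γ → κ → (Ell2 (Γ × ι) →L[ℂ] Ell2 (Γ × ι)) :=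
  fun n b j => R u⁻¹ * P n b j

theorem lefA_apply (u : Λ) (P : ℕ → Γ → κ → (Ell2 (Γ × ι) →L[ℂ] Ell2 (Γ × ι))) (n : ℕ) (b : Γ)
    (j : κ) (ξ : Ell2 (Γ × ι)) : lefA R u P n b j ξ = R u⁻¹ (P n b j ξ) := rfl

variable {B : ℕ → Finset Γ} {J : ℕ → Finset κ}
  {P Q Y : ℕ → Γ → κ → (Ell2 (Γ × ι) →L[ℂ] Ell2 (Γ × ι))} {U : Ultrafilter ℕ}

/-! ### Sums -/

theorem dsum_mono {B : Finset Γ} {J : Finset κ} {f g : Γ → κ → ℝ} (h : ∀ b j, f b j ≤ g b j) :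
    ∑ b ∈ B, ∑ j ∈ J, f b j ≤ ∑ b ∈ B, ∑ j ∈ J, g b j :=
  Finset.sum_le_sum fun b _ => Finset.sum_le_sum fun j _ => h b j

theorem dsum_nonneg {B : Finset Γ} {J : Finset κ} {f : Γ → κ → ℝ} (h : ∀ b j, 0 ≤ f b j) :
    0 ≤ ∑ b ∈ B, ∑ j ∈ J, f b j :=
  Finset.sum_nonneg fun b _ => Finset.sum_nonneg fun j _ => h b j

theorem dsum_inner_le {H : Type} [NormedAddCommGroup H] [InnerProductSpace ℂ H] (B : Finset Γ)
    (J : Finset κ) (x y : Γ → κ → H) : ‖∑ b ∈ B, ∑ j ∈ J, ⟪x b j, y b j⟫_ℂ‖ ≤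
      Real.sqrt (∑ b ∈ B, ∑ j ∈ J, ‖x b j‖ ^ 2) * Real.sqrt (∑ b ∈ B, ∑ j ∈ J, ‖y b j‖ ^ 2) := by
  rw [← Finset.sum_product', ← Finset.sum_product', ← Finset.sum_product']
  exact sum_inner_le _ _ _

theorem sum_adj_inner {H : Type} [NormedAddCommGroup H] [InnerProductSpace ℂ H] [CompleteSpace H]
    (B : Finset Γ) (J : Finset κ) (X : Γ → κ → (H →L[ℂ] H)) (ζ ξ : H) :
    ⟪ζ, (∑ b ∈ B, ∑ j ∈ J, adjoint (X b j) * X b j) ξ⟫_ℂ =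
      ∑ b ∈ B, ∑ j ∈ J, ⟪X b j ζ, X b j ξ⟫_ℂ := by
  simp only [ContinuousLinearMap.sum_apply, inner_sum]
  refine Finset.sum_congr rfl fun b _ => Finset.sum_congr rfl fun j _ => ?_
  rw [mul_ap, adjoint_inner_right]

theorem sum_adj_norm {H : Type} [NormedAddCommGroup H] [InnerProductSpace ℂ H] [CompleteSpace H]
    (B : Finset Γ) (J : Finset κ) (X : Γ → κ → (H →L[ℂ] H))
    (hX : ∀ ξ, ∑ b ∈ B, ∑ j ∈ J, ‖X b j ξ‖ ^ 2 ≤ ‖ξ‖ ^ 2) :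
    ‖∑ b ∈ B, ∑ j ∈ J, adjoint (X b j) * X b j‖ ≤ 1 := by
  obtain ⟨T, hT⟩ : ∃ T, T = ∑ b ∈ B, ∑ j ∈ J, adjoint (X b j) * X b j := ⟨_, rfl⟩
  rw [← hT]
  refine ContinuousLinearMap.opNorm_le_bound _ zero_le_one fun ξ => ?_
  rw [one_mul]
  have h1 : ‖⟪T ξ, T ξ⟫_ℂ‖ ≤ ‖T ξ‖ * ‖ξ‖ := by
    have e : ⟪T ξ, T ξ⟫_ℂ = ∑ b ∈ B, ∑ j ∈ J, ⟪X b j (T ξ), X b j ξ⟫_ℂ := by
      conv_lhs => rw [hT, sum_adj_inner]
      rw [← hT]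
    rw [e]
    refine (dsum_inner_le _ _ _ _).trans ?_
    have a1 : Real.sqrt (∑ b ∈ B, ∑ j ∈ J, ‖X b j (T ξ)‖ ^ 2) ≤ ‖T ξ‖ :=
      Real.sqrt_le_iff.mpr ⟨norm_nonneg _, hX _⟩
    have a2 : Real.sqrt (∑ b ∈ B, ∑ j ∈ J, ‖X b j ξ‖ ^ 2) ≤ ‖ξ‖ :=
      Real.sqrt_le_iff.mpr ⟨norm_nonneg _, hX _⟩
    gcongr
  rw [inner_self_eq_norm_sq_to_K] at h1
  have h2 : ‖((‖T ξ‖ : ℂ)) ^ 2‖ = ‖T ξ‖ ^ 2 := by
    rw [norm_pow, Complex.norm_real, norm_norm]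
  have h3 : ‖T ξ‖ ^ 2 ≤ ‖T ξ‖ * ‖ξ‖ := by
    rw [← h2]; exact h1
  by_cases h0 : ‖T ξ‖ = 0
  · rw [h0]; exact norm_nonneg _
  · have hpos : 0 < ‖T ξ‖ := lt_of_le_of_ne (norm_nonneg _) (Ne.symm h0)
    nlinarith

theorem FamA.bdd_BB (hP : FamA B J P) (s : Γ) (n : ℕ) (ξ : Ell2 (Γ × ι)) :
    ∑ b ∈ BB (B n) s, ∑ j ∈ J n, ‖P n b j ξ‖ ^ 2 ≤ ‖ξ‖ ^ 2 := by
  rw [sum_BB_left s (fun b => ∑ j ∈ J n, ‖P n b j ξ‖ ^ 2)
    (fun b hb => Finset.sum_eq_zero fun j _ => by rw [hP.off n b j hb]; simp)]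
  exact hP.bdd n ξ

theorem FamA.bdd_BB' (hP : FamA B J P) (s : Γ) (n : ℕ) (ξ : Ell2 (Γ × ι)) :
    ∑ b ∈ BB (B n) s, ∑ j ∈ J n, ‖P n (s * b) j ξ‖ ^ 2 ≤ ‖ξ‖ ^ 2 := by
  rw [sum_BB_right s (fun b => ∑ j ∈ J n, ‖P n b j ξ‖ ^ 2)
    (fun b hb => Finset.sum_eq_zero fun j _ => by rw [hP.off n b j hb]; simp)]
  exact hP.bdd n ξ

/-! ### Covariance on basis vectors -/

theorem dsum_sq_comb {X H : Type} [NormedAddCommGroup H] [InnerProductSpace ℂ H] (C : Finset Γ)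
    (J : Finset κ) (Q : Γ → κ → (Ell2 X →L[ℂ] H)) (s : Finset X) (c : X → ℂ) :
    ∑ b ∈ C, ∑ j ∈ J, ‖Q b j (∑ g ∈ s, c g • (dl g : Ell2 X))‖ ^ 2 ≤
      s.card * ∑ g ∈ s, ‖c g‖ ^ 2 * ∑ b ∈ C, ∑ j ∈ J, ‖Q b j (dl g)‖ ^ 2 := by
  have h1 : ∀ b j, ‖Q b j (∑ g ∈ s, c g • (dl g : Ell2 X))‖ ^ 2 ≤
      s.card * ∑ g ∈ s, ‖c g‖ ^ 2 * ‖Q b j (dl g)‖ ^ 2 := by
    intro b j
    rw [map_sum]
    have h2 : ‖∑ g ∈ s, Q b j (c g • (dl g : Ell2 X))‖ ≤ ∑ g ∈ s, ‖c g‖ * ‖Q b j (dl g)‖ := by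
      refine (norm_sum_le _ _).trans (Finset.sum_le_sum fun g _ => ?_)
      rw [map_smul, norm_smul]
    calc _ ≤ (∑ g ∈ s, ‖c g‖ * ‖Q b j (dl g)‖) ^ 2 := by gcongr
      _ ≤ s.card * ∑ g ∈ s, (‖c g‖ * ‖Q b j (dl g)‖) ^ 2 := sq_sum_le_card_mul_sum_sq
      _ = _ := by simp only [mul_pow]
  refine (dsum_mono h1).trans (le_of_eq ?_)
  simp only [← Finset.mul_sum]
  congr 1
  rw [Finset.sum_congr rfl fun b _ => Finset.sum_comm, Finset.sum_comm]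
  refine Finset.sum_congr rfl fun g _ => ?_
  simp only [← Finset.mul_sum]

/-- It is enough to check the asymptotic covariance on the basis vectors. -/
theorem covA_of_dl (hP : FamA B J P) (h : ∀ (s : Γ) (x : Γ × ι), Tendsto (fun n =>
      ∑ b ∈ BB (B n) s, ∑ j ∈ J n, ‖P n (s * b) j (dl x) - lx s (P n b j (lx s⁻¹ (dl x)))‖ ^ 2) U
      (𝓝 0)) : CovA U B J P := by
  intro s ξ
  obtain ⟨Q, hQ⟩ : ∃ Q : ℕ → Γ → κ → (Ell2 (Γ × ι) →L[ℂ] Ell2 (Γ × ι)), Q = fun n b j =>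
    P n (s * b) j - lx s * (P n b j * lx s⁻¹) := ⟨_, rfl⟩
  have hQa : ∀ n b j ξ, Q n b j ξ = P n (s * b) j ξ - lx s (P n b j (lx s⁻¹ ξ)) := by
    intro n b j ξ; rw [hQ]; rfl
  have hQb : ∀ n ξ, ∑ b ∈ BB (B n) s, ∑ j ∈ J n, ‖Q n b j ξ‖ ^ 2 ≤ 4 * ‖ξ‖ ^ 2 := by
    intro n ξ
    have h1 : ∀ b j, ‖Q n b j ξ‖ ^ 2 ≤ 2 * ‖P n (s * b) j ξ‖ ^ 2 +
        2 * ‖P n b j (lx s⁻¹ ξ)‖ ^ 2 := by
      intro b j
      rw [hQa, sub_eq_add_neg]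
      refine (sq_add_le _ _).trans ?_
      rw [norm_neg, norm_lx]
    refine (dsum_mono h1).trans ?_
    simp only [Finset.sum_add_distrib, ← Finset.mul_sum]
    have h2 := hP.bdd_BB' s n ξ
    have h3 := hP.bdd_BB s n (lx s⁻¹ ξ)
    rw [norm_lx] at h3
    linarith
  have h' : ∀ x : Γ × ι, Tendsto (fun n => ∑ b ∈ BB (B n) s, ∑ j ∈ J n, ‖Q n b j (dl x)‖ ^ 2) U
      (𝓝 0) := by
    intro x
    refine (h s x).congr fun n => ?_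
    exact Finset.sum_congr rfl fun b _ => Finset.sum_congr rfl fun j _ => by rw [hQa]
  suffices hs : Tendsto (fun n => ∑ b ∈ BB (B n) s, ∑ j ∈ J n, ‖Q n b j ξ‖ ^ 2) U (𝓝 0) by
    refine hs.congr fun n => ?_
    exact Finset.sum_congr rfl fun b _ => Finset.sum_congr rfl fun j _ => by rw [hQa]
  rw [Metric.tendsto_nhds]
  intro ε hε
  obtain ⟨δ, hδ0, hδ⟩ : ∃ δ : ℝ, 0 < δ ∧ 8 * δ ^ 2 < ε / 2 := by
    refine ⟨min 1 (ε / 32), by positivity, ?_⟩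
    have h1 : min 1 (ε / 32) ≤ 1 := min_le_left _ _
    have h2 : min 1 (ε / 32) ≤ ε / 32 := min_le_right _ _
    have h3 : 0 < min 1 (ε / 32) := by positivity
    nlinarith
  obtain ⟨tt, htt⟩ := ((hasSum_dl ξ).eventually (Metric.ball_mem_nhds _ hδ0)).exists
  obtain ⟨η, hη⟩ : ∃ η : Ell2 (Γ × ι), η = ∑ g ∈ tt, ξ g • (dl g : Ell2 (Γ × ι)) := ⟨_, rfl⟩
  have htc : ‖ξ - η‖ < δ := by
    rw [← dist_eq_norm, dist_comm, hη]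
    exact htt
  have hlim : Tendsto (fun n => 2 * (tt.card * ∑ g ∈ tt, ‖ξ g‖ ^ 2 *
      ∑ b ∈ BB (B n) s, ∑ j ∈ J n, ‖Q n b j (dl g)‖ ^ 2)) U (𝓝 0) := by
    have h1 : Tendsto (fun n => ∑ g ∈ tt, ‖ξ g‖ ^ 2 * ∑ b ∈ BB (B n) s, ∑ j ∈ J n,
        ‖Q n b j (dl g)‖ ^ 2) U (𝓝 (∑ g ∈ tt, ‖ξ g‖ ^ 2 * 0)) :=
      tendsto_finsetSum tt fun g _ => (h' g).const_mul _
    have h2 := (h1.const_mul (tt.card : ℝ)).const_mul 2
    simpa using h2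
  filter_upwards [(Metric.tendsto_nhds.mp hlim) (ε / 2) (by positivity)] with n hn
  rw [dist_zero_right] at hn ⊢
  have hnn : 0 ≤ ∑ b ∈ BB (B n) s, ∑ j ∈ J n, ‖Q n b j ξ‖ ^ 2 :=
    dsum_nonneg fun b j => by positivity
  rw [Real.norm_of_nonneg hnn]
  have h1 : ∑ b ∈ BB (B n) s, ∑ j ∈ J n, ‖Q n b j ξ‖ ^ 2 ≤
      ∑ b ∈ BB (B n) s, ∑ j ∈ J n, (2 * ‖Q n b j (ξ - η)‖ ^ 2 + 2 * ‖Q n b j η‖ ^ 2) := by
    refine dsum_mono fun b j => ?_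
    have := sq_add_le (Q n b j (ξ - η)) (Q n b j η)
    rwa [← map_add, sub_add_cancel] at this
  simp only [Finset.sum_add_distrib, ← Finset.mul_sum] at h1
  have h2 := hQb n (ξ - η)
  have h3 := dsum_sq_comb (BB (B n) s) (J n) (Q n) tt (fun g => ξ g)
  rw [← hη] at h3
  have h4 : ‖ξ - η‖ ^ 2 ≤ δ ^ 2 := by
    have := norm_nonneg (ξ - η)
    gcongr
  have h5 := le_abs_self (2 * (tt.card * ∑ g ∈ tt, ‖ξ g‖ ^ 2 *
      ∑ b ∈ BB (B n) s, ∑ j ∈ J n, ‖Q n b j (dl g)‖ ^ 2))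
  rw [Real.norm_eq_abs] at hn
  linarith

/-! ### Midpoints -/

theorem FamA.mid (hP : FamA B J P) (hQ : FamA B J Q) : FamA B J (midA P Q) where
  off n b j hb := by rw [midA, hP.off n b j hb, hQ.off n b j hb, add_zero, smul_zero]
  bdd n ξ := by
    have h1 : ∑ b ∈ B n, ∑ j ∈ J n, ‖midA P Q n b j ξ‖ ^ 2 ≤
        ∑ b ∈ B n, ∑ j ∈ J n, (‖P n b j ξ‖ ^ 2 + ‖Q n b j ξ‖ ^ 2) / 2 :=
      dsum_mono fun b j => half_sq_le _ _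
    have h2 : ∑ b ∈ B n, ∑ j ∈ J n, (‖P n b j ξ‖ ^ 2 + ‖Q n b j ξ‖ ^ 2) / 2 =
        (∑ b ∈ B n, ∑ j ∈ J n, ‖P n b j ξ‖ ^ 2 + ∑ b ∈ B n, ∑ j ∈ J n, ‖Q n b j ξ‖ ^ 2) / 2 := by
      simp only [← Finset.sum_div, Finset.sum_add_distrib]
    have := hP.bdd n ξ
    have := hQ.bdd n ξ
    linarith

theorem CovA.mid (hP : CovA U B J P) (hQ : CovA U B J Q) : CovA U B J (midA P Q) := by
  intro s ξ
  have h1 := ((hP s ξ).add (hQ s ξ)).div_const 2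
  rw [add_zero, zero_div] at h1
  refine squeeze_zero (fun n => dsum_nonneg fun b j => by positivity) (fun n => ?_) h1
  have h2 : ∀ f g : Γ → κ → ℝ, (∑ b ∈ BB (B n) s, ∑ j ∈ J n, f b j +
      ∑ b ∈ BB (B n) s, ∑ j ∈ J n, g b j) / 2 =
      ∑ b ∈ BB (B n) s, ∑ j ∈ J n, (f b j + g b j) / 2 := by
    intro f g
    simp only [← Finset.sum_div, Finset.sum_add_distrib]
  rw [h2]
  refine dsum_mono fun b j => ?_
  have e1 : midA P Q n (s * b) j ξ - lx s (midA P Q n b j (lx s⁻¹ ξ)) =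
      (1 / 2 : ℂ) • ((P n (s * b) j ξ - lx s (P n b j (lx s⁻¹ ξ))) +
        (Q n (s * b) j ξ - lx s (Q n b j (lx s⁻¹ ξ)))) := by
    rw [midA_apply, midA_apply, map_smul, ← smul_sub, map_add]
    congr 1
    abel
  rw [e1]
  exact half_sq_le _ _

theorem LowA.mid {K : Subgroup Λ} {c : ℝ} (hP : LowA R K U B J Y P c) (hQ : LowA R K U B J Y Q c) :
    LowA R K U B J Y (midA P Q) c := by
  intro u hu
  filter_upwards [hP u hu, hQ u hu] with n h1 h2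
  have e1 : ∑ b ∈ B n, ∑ j ∈ J n, ∑ i : ι, ⟪Y n b j (R u (ep i)), midA P Q n b j (R u (ep i))⟫_ℂ =
      (1 / 2 : ℂ) * (∑ b ∈ B n, ∑ j ∈ J n, ∑ i : ι, ⟪Y n b j (R u (ep i)), P n b j (R u (ep i))⟫_ℂ +
        ∑ b ∈ B n, ∑ j ∈ J n, ∑ i : ι, ⟪Y n b j (R u (ep i)), Q n b j (R u (ep i))⟫_ℂ) := by
    simp only [midA_apply, inner_smul_right, inner_add_right, Finset.mul_sum,
      Finset.sum_add_distrib, mul_add]
  rw [e1]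
  have e2 : (1 / 2 : ℂ) = ((1 / 2 : ℝ) : ℂ) := by norm_num
  rw [e2, Complex.re_ofReal_mul, Complex.add_re]
  linarith

/-! ### The action -/

section act

variable (hR : ARep t R)

include hR

theorem FamA.lef (hP : FamA B J P) (u : Λ) : FamA B J (lefA R u P) where
  off n b j hb := by rw [lefA, hP.off n b j hb, mul_zero]
  bdd n ξ := by
    refine le_trans (dsum_mono fun b j => ?_) (hP.bdd n ξ)
    rw [lefA_apply]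
    have := hR.norm_le u⁻¹ (P n b j ξ)
    gcongr

theorem CovA.lef (hP : CovA U B J P) (u : Λ) : CovA U B J (lefA R u P) := by
  intro s ξ
  refine squeeze_zero (fun n => dsum_nonneg fun b j => by positivity) (fun n => ?_) (hP s ξ)
  refine dsum_mono fun b j => ?_
  rw [lefA_apply, lefA_apply, ← hR.lx, ← map_sub]
  have := hR.norm_le u⁻¹ (P n (s * b) j ξ - lx s (P n b j (lx s⁻¹ ξ)))
  gcongr

theorem FamA.act (hP : FamA B J P) (u : Λ) : FamA B J (actA R u P) where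
  off n b j hb := by rw [actA, hP.off n b j hb, mul_zero, zero_mul]
  bdd n ξ := by
    have h1 := (FamA.lef hR hP u).bdd n (R u ξ)
    refine le_trans (le_of_eq ?_) (h1.trans ?_)
    · rfl
    · have := hR.norm_le u ξ
      gcongr

theorem CovA.act (hP : CovA U B J P) (u : Λ) : CovA U B J (actA R u P) := by
  intro s ξ
  refine (CovA.lef hR hP u s (R u ξ)).congr fun n => ?_
  refine Finset.sum_congr rfl fun b _ => Finset.sum_congr rfl fun j _ => ?_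
  rw [lefA_apply, lefA_apply, actA_apply, actA_apply, hR.lx]

theorem LowA.act {K : Subgroup Λ} {c : ℝ} (hP : LowA R K U B J Y P c)
    (hYW : ∀ u ∈ K, ∀ n b j, Y n b j * R u = R u * Y n b j) (v : Λ) (hv : v ∈ K) :
    LowA R K U B J Y (actA R v P) c := by
  intro u hu
  filter_upwards [hP (v * u) (K.mul_mem hv hu)] with n h1
  refine h1.trans (le_of_eq ?_)
  congr 1
  refine Finset.sum_congr rfl fun b _ => Finset.sum_congr rfl fun j _ =>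
    Finset.sum_congr rfl fun i _ => ?_
  rw [actA_apply, hR.inner_right, inv_inv]
  have e1 : R v (Y n b j (R u (ep i))) = Y n b j (R v (R u (ep i))) :=
    congrArg (fun T : Ell2 (Γ × ι) →L[ℂ] Ell2 (Γ × ι) => T (R u (ep i))) (hYW v hv n b j).symm
  rw [e1, hR.app]

end act

/-! ### The weights -/

/-- Square roots of the additive covariant family. -/
structure QFam (R : Λ → (Ell2 (Γ × ι) →L[ℂ] Ell2 (Γ × ι)))
    (q : Set Λ → (Ell2 (Γ × ι) →L[ℂ] Ell2 (Γ × ι))) : Prop where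
  add : ∀ A A', Disjoint A A' → ∀ ξ, ‖q (A ∪ A') ξ‖ ^ 2 = ‖q A ξ‖ ^ 2 + ‖q A' ξ‖ ^ 2
  univ : ∀ ξ, ‖q Set.univ ξ‖ = ‖R 1 ξ‖
  cov : ∀ v A ξ, ‖q {w | w * v ∈ A} ξ‖ = ‖q A (R v⁻¹ ξ)‖

theorem exists_qfam (hR : ARep t R) (hE : H538.EFam R E) :
    ∃ q : Set Λ → (Ell2 (Γ × ι) →L[ℂ] Ell2 (Γ × ι)), QFam R q := by
  have h1 : ∀ A, ∃ q : Ell2 (Γ × ι) →L[ℂ] Ell2 (Γ × ι), ∀ ξ, ‖q ξ‖ ^ 2 = (⟪ξ, E A ξ⟫_ℂ).re := by
    intro A
    obtain ⟨q, hq, -⟩ := H108.exists_sqrt (hE.nonneg A)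
    refine ⟨q, fun ξ => ?_⟩
    have h4 : ⟪ξ, E A ξ⟫_ℂ = ((‖q ξ‖ ^ 2 : ℝ) : ℂ) := by
      rw [← hq, mul_ap, star_eq_adjoint, adjoint_inner_right, inner_self_eq_norm_sq_to_K]
      norm_cast
    rw [h4, Complex.ofReal_re]
  choose q hq using h1
  refine ⟨q, ⟨fun A A' h ξ => ?_, fun ξ => ?_, fun v A ξ => ?_⟩⟩
  · rw [hq, hq, hq, hE.add A A' h, add_apply, inner_add_right, Complex.add_re]
  · refine (pow_left_inj₀ (norm_nonneg _) (norm_nonneg _) two_ne_zero).mp ?_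
    rw [hq, hE.univ]
    have h2 : ⟪ξ, R 1 ξ⟫_ℂ = ((‖R 1 ξ‖ ^ 2 : ℝ) : ℂ) := by
      have h3 : R 1 ξ = R 1 (R 1 ξ) := by rw [hR.app, _root_.mul_one]
      rw [h3, hR.inner_right, inv_one, ← h3, inner_self_eq_norm_sq_to_K]
      norm_cast
    rw [h2, Complex.ofReal_re]
  · refine (pow_left_inj₀ (norm_nonneg _) (norm_nonneg _) two_ne_zero).mp ?_
    rw [hq, hq, ← hE.cov, mul_ap, mul_ap, hR.inner_right]

section q

variable {q : Set Λ → (Ell2 (Γ × ι) →L[ℂ] Ell2 (Γ × ι))}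

theorem QFam.le (hR : ARep t R) (h : QFam R q) (A : Set Λ) (ξ : Ell2 (Γ × ι)) :
    ‖q A ξ‖ ≤ ‖R 1 ξ‖ := by
  have h1 := h.add A Aᶜ disjoint_compl_right ξ
  rw [Set.union_compl_self, h.univ] at h1
  have h2 : ‖q A ξ‖ ^ 2 ≤ ‖R 1 ξ‖ ^ 2 := by
    have : 0 ≤ ‖q Aᶜ ξ‖ ^ 2 := by positivity
    linarith
  exact (pow_le_pow_iff_left₀ (norm_nonneg _) (norm_nonneg _) two_ne_zero).mp h2

theorem QFam.le' (hR : ARep t R) (h : QFam R q) (A : Set Λ) (ξ : Ell2 (Γ × ι)) :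
    ‖q A ξ‖ ≤ ‖ξ‖ := (h.le hR A ξ).trans (hR.norm_one_le ξ)

end q

/-! ### The invariance of the limit -/

theorem lx_inv_lx (s : Γ) (ω : Ell2 (Γ × ι)) : lx s⁻¹ (lx s ω) = ω := by
  rw [← mul_ap, ← lx_mul, inv_mul_cancel, lx_one]; rfl

/-- Asymptotically equivariant families of operators. -/
structure EqF (U : Ultrafilter ℕ) (B : ℕ → Finset Γ) (J : ℕ → Finset κ)
    (X : ℕ → Γ → κ → (Ell2 (Γ × ι) →L[ℂ] Ell2 (Γ × ι))) : Prop extends FamA B J X where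
  eqv : ∀ (s : Γ) (ξ : Ell2 (Γ × ι)), Tendsto (fun n => ∑ b ∈ BB (B n) s, ∑ j ∈ J n,
    ‖X n (s * b) j ξ - X n b j (lx s⁻¹ ξ)‖ ^ 2) U (𝓝 0)

theorem EqF.diff {X : ℕ → Γ → κ → (Ell2 (Γ × ι) →L[ℂ] Ell2 (Γ × ι))} (h : EqF U B J X) (s : Γ)
    (n : ℕ) (ζ ξ : Ell2 (Γ × ι)) :
    ∑ b ∈ B n, ∑ j ∈ J n, ⟪X n b j ζ, X n b j (lx s ξ)⟫_ℂ -
      ∑ b ∈ B n, ∑ j ∈ J n, ⟪X n b j (lx s⁻¹ ζ), X n b j ξ⟫_ℂ =
      ∑ b ∈ BB (B n) s, ∑ j ∈ J n, ⟪X n (s * b) j ζ - X n b j (lx s⁻¹ ζ),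
        X n (s * b) j (lx s ξ)⟫_ℂ +
      ∑ b ∈ BB (B n) s, ∑ j ∈ J n, ⟪X n b j (lx s⁻¹ ζ), X n (s * b) j (lx s ξ) -
        X n b j (lx s⁻¹ (lx s ξ))⟫_ℂ := by
  rw [← sum_BB_right s (fun b => ∑ j ∈ J n, ⟪X n b j ζ, X n b j (lx s ξ)⟫_ℂ),
    ← sum_BB_left s (fun b => ∑ j ∈ J n, ⟪X n b j (lx s⁻¹ ζ), X n b j ξ⟫_ℂ),
    ← Finset.sum_sub_distrib, ← Finset.sum_add_distrib]
  · refine Finset.sum_congr rfl fun b _ => ?_
    rw [← Finset.sum_sub_distrib, ← Finset.sum_add_distrib]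
    refine Finset.sum_congr rfl fun j _ => ?_
    rw [lx_inv_lx, inner_sub_left, inner_sub_right]
    ring
  · intro b hb
    refine Finset.sum_eq_zero fun j _ => ?_
    rw [h.off n b j hb]; simp
  · intro b hb
    refine Finset.sum_eq_zero fun j _ => ?_
    rw [h.off n b j hb]; simp

theorem EqF.lim {X : ℕ → Γ → κ → (Ell2 (Γ × ι) →L[ℂ] Ell2 (Γ × ι))} (h : EqF U B J X) :
    ∃ L : Ell2 (Γ × ι) →L[ℂ] Ell2 (Γ × ι), RA L ∧ ∀ ξ, Tendsto (fun n =>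
      ∑ b ∈ B n, ∑ j ∈ J n, ‖X n b j ξ‖ ^ 2) U (𝓝 (⟪ξ, L ξ⟫_ℂ).re) := by
  obtain ⟨T, hT⟩ : ∃ T : ℕ → (Ell2 (Γ × ι) →L[ℂ] Ell2 (Γ × ι)), T = fun n =>
    ∑ b ∈ B n, ∑ j ∈ J n, adjoint (X n b j) * X n b j := ⟨_, rfl⟩
  have hTi : ∀ n ζ ξ, ⟪ζ, T n ξ⟫_ℂ = ∑ b ∈ B n, ∑ j ∈ J n, ⟪X n b j ζ, X n b j ξ⟫_ℂ := by
    intro n ζ ξ
    rw [hT]
    exact sum_adj_inner _ _ _ _ _
  have hTb : ∀ n, ‖T n‖ ≤ 1 := by
    intro n
    rw [hT]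
    exact sum_adj_norm _ _ _ (h.bdd n)
  obtain ⟨L, hL⟩ : ∃ L, L = wl U T := ⟨_, rfl⟩
  have hLs : ∀ ζ ξ, Tendsto (fun n => ⟪ζ, T n ξ⟫_ℂ) U (𝓝 ⟪ζ, L ξ⟫_ℂ) := by
    intro ζ ξ; rw [hL]; exact wl_spec U hTb ζ ξ
  refine ⟨L, fun s => ?_, fun ξ => ?_⟩
  · refine op_ext_inner fun ζ ξ => ?_
    change ⟪ζ, L (lx s ξ)⟫_ℂ = ⟪ζ, lx s (L ξ)⟫_ℂ
    rw [inner_lx_right]
    refine sub_eq_zero.mp (tendsto_nhds_unique ((hLs ζ (lx s ξ)).sub (hLs (lx s⁻¹ ζ) ξ)) ?_)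
    obtain ⟨d, hd⟩ : ∃ d : Ell2 (Γ × ι) → ℕ → ℝ, d = fun η n => ∑ b ∈ BB (B n) s, ∑ j ∈ J n,
      ‖X n (s * b) j η - X n b j (lx s⁻¹ η)‖ ^ 2 := ⟨_, rfl⟩
    have hdt : ∀ η, Tendsto (d η) U (𝓝 0) := by
      intro η; rw [hd]; exact h.eqv s η
    have hlim : Tendsto (fun n => Real.sqrt (d ζ n) * ‖ξ‖ + ‖ζ‖ * Real.sqrt (d (lx s ξ) n)) U
        (𝓝 0) := by
      have h1 := ((Real.continuous_sqrt.tendsto 0).comp (hdt ζ)).mul_const ‖ξ‖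
      have h2 := ((Real.continuous_sqrt.tendsto 0).comp (hdt (lx s ξ))).const_mul ‖ζ‖
      have h3 := h1.add h2
      rw [Real.sqrt_zero, zero_mul, mul_zero, add_zero] at h3
      exact h3
    refine squeeze_zero_norm (fun n => ?_) hlim
    rw [hTi, hTi, h.diff s n ζ ξ]
    have b1 : Real.sqrt (∑ b ∈ BB (B n) s, ∑ j ∈ J n, ‖X n (s * b) j (lx s ξ)‖ ^ 2) ≤ ‖ξ‖ := by
      refine Real.sqrt_le_iff.mpr ⟨norm_nonneg _, ?_⟩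
      have h1 := h.toFamA.bdd_BB' s n (lx s ξ)
      rwa [norm_lx] at h1
    have b2 : Real.sqrt (∑ b ∈ BB (B n) s, ∑ j ∈ J n, ‖X n b j (lx s⁻¹ ζ)‖ ^ 2) ≤ ‖ζ‖ := by
      refine Real.sqrt_le_iff.mpr ⟨norm_nonneg _, ?_⟩
      have h1 := h.toFamA.bdd_BB s n (lx s⁻¹ ζ)
      rwa [norm_lx] at h1
    refine (norm_add_le _ _).trans (add_le_add ?_ ?_)
    · refine (dsum_inner_le _ _ _ _).trans ?_
      rw [hd]
      exact mul_le_mul_of_nonneg_left b1 (Real.sqrt_nonneg _)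
    · refine (dsum_inner_le _ _ _ _).trans ?_
      rw [hd]
      exact mul_le_mul_of_nonneg_right b2 (Real.sqrt_nonneg _)
  · refine ((Complex.continuous_re.tendsto _).comp (hLs ξ ξ)).congr fun n => ?_
    rw [Function.comp_apply, hTi, Complex.re_sum]
    refine Finset.sum_congr rfl fun b _ => ?_
    rw [Complex.re_sum]
    refine Finset.sum_congr rfl fun j _ => ?_
    rw [inner_self_eq_norm_sq_to_K]
    norm_cast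

/-- The trace property: the sum over the vectors `R u ε_i` does not depend on `u`. -/
theorem EqF.inv {X : ℕ → Γ → κ → (Ell2 (Γ × ι) →L[ℂ] Ell2 (Γ × ι))} (h : EqF U B J X)
    (hR : ARep t R) (u : Λ) :
    ul U (fun n => ∑ i : ι, ∑ b ∈ B n, ∑ j ∈ J n, ‖X n b j (R u (ep i))‖ ^ 2) =
      ul U (fun n => ∑ i : ι, ∑ b ∈ B n, ∑ j ∈ J n, ‖X n b j (R 1 (ep i))‖ ^ 2) := by
  obtain ⟨L, hL, hLs⟩ := h.lim
  have htr : ∀ v : Λ, trA (R v⁻¹ * (L * R v)) = trA (R 1 * (L * R 1)) := by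
    intro v
    rw [trA_comm (hR.ra v⁻¹) (hL.mul (hR.ra v)), mul_assoc, hR.mul_inv, trA_comm (hR.ra 1)
      (hL.mul (hR.ra 1)), mul_assoc, hR.one_mul_one]
  have hre : ∀ v : Λ, Tendsto (fun n => ∑ i : ι, ∑ b ∈ B n, ∑ j ∈ J n,
      ‖X n b j (R v (ep i))‖ ^ 2) U (𝓝 (trA (R v⁻¹ * (L * R v))).re) := by
    intro v
    have h1 : trA (R v⁻¹ * (L * R v)) = ∑ i : ι, ⟪R v (ep i), L (R v (ep i))⟫_ℂ := by
      rw [trA]
      refine Finset.sum_congr rfl fun i _ => ?_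
      rw [mul_ap, mul_ap, hR.inner_right, inv_inv]
    rw [h1, Complex.re_sum]
    exact tendsto_finsetSum _ fun i _ => hLs (R v (ep i))
  rw [ul_eq U (hre u), ul_eq U (hre 1), htr u, inv_one]

section q

variable {q : Set Λ → (Ell2 (Γ × ι) →L[ℂ] Ell2 (Γ × ι))}

/-- The weighted family. -/
noncomputable def wt (q : Set Λ → (Ell2 (Γ × ι) →L[ℂ] Ell2 (Γ × ι))) (A : Set Λ)
    (P : ℕ → Γ → κ → (Ell2 (Γ × ι) →L[ℂ] Ell2 (Γ × ι))) :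
    ℕ → Γ → κ → (Ell2 (Γ × ι) →L[ℂ] Ell2 (Γ × ι)) := fun n b j => q A * (lx b⁻¹ * P n b j)

theorem wt_apply (A : Set Λ) (P : ℕ → Γ → κ → (Ell2 (Γ × ι) →L[ℂ] Ell2 (Γ × ι))) (n : ℕ) (b : Γ)
    (j : κ) (ξ : Ell2 (Γ × ι)) : wt q A P n b j ξ = q A (lx b⁻¹ (P n b j ξ)) := rfl

theorem eqF_wt (hR : ARep t R) (h : QFam R q) (hP : FamA B J P) (hc : CovA U B J P) (A : Set Λ) :
    EqF U B J (wt q A P) where
  off n b j hb := by rw [wt, hP.off n b j hb, mul_zero, mul_zero]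
  bdd n ξ := by
    refine le_trans (dsum_mono fun b j => ?_) (hP.bdd n ξ)
    rw [wt_apply]
    have h1 := h.le' hR A (lx b⁻¹ (P n b j ξ))
    rw [norm_lx] at h1
    gcongr
  eqv s ξ := by
    refine squeeze_zero (fun n => dsum_nonneg fun b j => by positivity) (fun n => ?_) (hc s ξ)
    refine dsum_mono fun b j => ?_
    have h1 : ‖wt q A P n (s * b) j ξ - wt q A P n b j (lx s⁻¹ ξ)‖ ≤
        ‖P n (s * b) j ξ - lx s (P n b j (lx s⁻¹ ξ))‖ := by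
      rw [wt_apply, wt_apply, ← map_sub]
      refine (h.le' hR A _).trans (le_of_eq ?_)
      have e2 : lx (s * b)⁻¹ (P n (s * b) j ξ) - lx b⁻¹ (P n b j (lx s⁻¹ ξ)) =
          lx b⁻¹ (lx s⁻¹ (P n (s * b) j ξ - lx s (P n b j (lx s⁻¹ ξ)))) := by
        rw [map_sub, lx_inv_lx, map_sub, mul_inv_rev, lx_mul, mul_ap]
      rw [e2, norm_lx, norm_lx]
    gcongr

/-- The mass functional. -/
noncomputable def NA (R : Λ → (Ell2 (Γ × ι) →L[ℂ] Ell2 (Γ × ι)))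
    (q : Set Λ → (Ell2 (Γ × ι) →L[ℂ] Ell2 (Γ × ι))) (U : Ultrafilter ℕ) (B : ℕ → Finset Γ)
    (J : ℕ → Finset κ) (A : Set Λ) (P : ℕ → Γ → κ → (Ell2 (Γ × ι) →L[ℂ] Ell2 (Γ × ι))) : ℝ :=
  ul U (fun n => ∑ i : ι, ∑ b ∈ B n, ∑ j ∈ J n, ‖wt q A P n b j (R 1 (ep i))‖ ^ 2)

theorem NA_inv (hR : ARep t R) (h : QFam R q) (hP : FamA B J P) (hc : CovA U B J P) (A : Set Λ)
    (u : Λ) : NA R q U B J {w | w * u ∈ A} P = NA R q U B J A (actA R u P) := by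
  have h1 := (eqF_wt hR h (FamA.lef hR hP u) (CovA.lef hR hc u) A).inv hR u
  have h2 : (fun n => ∑ i : ι, ∑ b ∈ B n, ∑ j ∈ J n,
      ‖wt q A (lefA R u P) n b j (R u (ep i))‖ ^ 2) = fun n => ∑ i : ι, ∑ b ∈ B n, ∑ j ∈ J n,
      ‖wt q A (actA R u P) n b j (R 1 (ep i))‖ ^ 2 := by
    funext n
    refine Finset.sum_congr rfl fun i _ => Finset.sum_congr rfl fun b _ =>
      Finset.sum_congr rfl fun j _ => ?_
    rw [wt_apply, wt_apply, lefA_apply, actA_apply, hR.app, _root_.mul_one]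
  have h3 : (fun n => ∑ i : ι, ∑ b ∈ B n, ∑ j ∈ J n,
      ‖wt q A (lefA R u P) n b j (R 1 (ep i))‖ ^ 2) = fun n => ∑ i : ι, ∑ b ∈ B n, ∑ j ∈ J n,
      ‖wt q {w | w * u ∈ A} P n b j (R 1 (ep i))‖ ^ 2 := by
    funext n
    refine Finset.sum_congr rfl fun i _ => Finset.sum_congr rfl fun b _ =>
      Finset.sum_congr rfl fun j _ => ?_
    rw [wt_apply, wt_apply, lefA_apply, h.cov, hR.lx]
  rw [h2, h3] at h1
  exact h1.symm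

/-- the triple sums -/
theorem tsum_sqrt_sub_le {H : Type} [NormedAddCommGroup H] [InnerProductSpace ℂ H] (B : Finset Γ)
    (J : Finset κ) (x y : ι → Γ → κ → H) :
    |Real.sqrt (∑ i : ι, ∑ b ∈ B, ∑ j ∈ J, ‖x i b j‖ ^ 2) -
      Real.sqrt (∑ i : ι, ∑ b ∈ B, ∑ j ∈ J, ‖y i b j‖ ^ 2)| ≤
      Real.sqrt (∑ i : ι, ∑ b ∈ B, ∑ j ∈ J, ‖x i b j - y i b j‖ ^ 2) := by
  have e : ∀ f : ι → Γ → κ → ℝ, ∑ i : ι, ∑ b ∈ B, ∑ j ∈ J, f i b j =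
      ∑ y ∈ (Finset.univ : Finset ι) ×ˢ (B ×ˢ J), f y.1 y.2.1 y.2.2 := by
    intro f
    rw [Finset.sum_product]
    refine Finset.sum_congr rfl fun i _ => ?_
    rw [Finset.sum_product]
  rw [e, e, e]
  exact sqrt_sum_sub_le _ _ _

theorem tsum_inner_le {H : Type} [NormedAddCommGroup H] [InnerProductSpace ℂ H] (B : Finset Γ)
    (J : Finset κ) (x y : ι → Γ → κ → H) :
    ‖∑ b ∈ B, ∑ j ∈ J, ∑ i : ι, ⟪x i b j, y i b j⟫_ℂ‖ ≤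
      Real.sqrt (∑ i : ι, ∑ b ∈ B, ∑ j ∈ J, ‖x i b j‖ ^ 2) *
      Real.sqrt (∑ i : ι, ∑ b ∈ B, ∑ j ∈ J, ‖y i b j‖ ^ 2) := by
  have e : ∀ f : ι → Γ → κ → ℝ, ∑ i : ι, ∑ b ∈ B, ∑ j ∈ J, f i b j =
      ∑ y ∈ (Finset.univ : Finset ι) ×ˢ (B ×ˢ J), f y.1 y.2.1 y.2.2 := by
    intro f
    rw [Finset.sum_product]
    refine Finset.sum_congr rfl fun i _ => ?_
    rw [Finset.sum_product]
  have e2 : ∑ b ∈ B, ∑ j ∈ J, ∑ i : ι, ⟪x i b j, y i b j⟫_ℂ =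
      ∑ z ∈ (Finset.univ : Finset ι) ×ˢ (B ×ˢ J), ⟪x z.1 z.2.1 z.2.2, y z.1 z.2.1 z.2.2⟫_ℂ := by
    rw [Finset.sum_product, Finset.sum_congr rfl fun b _ => Finset.sum_comm, Finset.sum_comm]
    refine Finset.sum_congr rfl fun i _ => ?_
    rw [Finset.sum_product]
  rw [e, e, e2]
  exact sum_inner_le _ _ _

/-- **The invariant mean** (row model). -/
theorem mean_of_mapsA (hR : ARep t R) (hE : H538.EFam R E) (K : Subgroup Λ) (U : Ultrafilter ℕ)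
    (B : ℕ → Finset Γ) (J : ℕ → Finset κ)
    (P0 Y : ℕ → Γ → κ → (Ell2 (Γ × ι) →L[ℂ] Ell2 (Γ × ι))) (hP0 : FamA B J P0)
    (hc0 : CovA U B J P0) {CY : ℝ}
    (hY : ∀ n, ∑ i : ι, ∑ b ∈ B n, ∑ j ∈ J n, ‖Y n b j (R 1 (ep i))‖ ^ 2 ≤ CY)
    (hYW : ∀ u ∈ K, ∀ n b j, Y n b j * R u = R u * Y n b j)
    {c : ℝ} (hc : 0 < c) (h3 : LowA R K U B J Y P0 c) :
    ∃ m : Set Λ → ℝ, H200.IsInvMean K m := by
  obtain ⟨q, hq⟩ := exists_qfam hR hE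
  have hCY : 0 ≤ CY := (Finset.sum_nonneg fun i _ => dsum_nonneg fun b j => by positivity).trans
    (hY 0)
  have hn1 : ∀ i : ι, ‖R 1 (ep i)‖ ^ 2 ≤ 1 := by
    intro i
    have h1 := hR.norm_one_le (ep i)
    rw [ep, norm_dl] at h1
    have := norm_nonneg (R 1 (dl (1, i)))
    rw [ep]
    nlinarith
  have hle : ∀ (A : Set Λ) (P : ℕ → Γ → κ → (Ell2 (Γ × ι) →L[ℂ] Ell2 (Γ × ι))), FamA B J P →
      CovA U B J P → ∀ n, |∑ i : ι, ∑ b ∈ B n, ∑ j ∈ J n, ‖wt q A P n b j (R 1 (ep i))‖ ^ 2| ≤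
        Fintype.card ι := by
    intro A P hP hcP n
    rw [abs_of_nonneg (Finset.sum_nonneg fun i _ => dsum_nonneg fun b j => by positivity)]
    calc _ ≤ ∑ i : ι, (1 : ℝ) := Finset.sum_le_sum fun i _ =>
          ((eqF_wt hR hq hP hcP A).bdd n _).trans (hn1 i)
      _ = _ := by simp
  have hNs : ∀ (A : Set Λ) (P : ℕ → Γ → κ → (Ell2 (Γ × ι) →L[ℂ] Ell2 (Γ × ι))), FamA B J P →
      CovA U B J P → Tendsto (fun n => ∑ i : ι, ∑ b ∈ B n, ∑ j ∈ J n,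
        ‖wt q A P n b j (R 1 (ep i))‖ ^ 2) U (𝓝 (NA R q U B J A P)) :=
    fun A P hP hcP => ul_spec U (hle A P hP hcP)
  have hwm : ∀ (A : Set Λ) (P Q : ℕ → Γ → κ → (Ell2 (Γ × ι) →L[ℂ] Ell2 (Γ × ι))) n b j ξ,
      wt q A (midA P Q) n b j ξ = (1 / 2 : ℂ) • (wt q A P n b j ξ + wt q A Q n b j ξ) := by
    intro A P Q n b j ξ
    rw [wt_apply, wt_apply, wt_apply, midA_apply, map_smul, map_smul, map_add, map_add]
  have hDle : ∀ (P Q : ℕ → Γ → κ → (Ell2 (Γ × ι) →L[ℂ] Ell2 (Γ × ι))), FamA B J P → FamA B J Q →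
      CovA U B J P → CovA U B J Q → ∀ n, |∑ i : ι, ∑ b ∈ B n, ∑ j ∈ J n,
        ‖wt q Set.univ P n b j (R 1 (ep i)) - wt q Set.univ Q n b j (R 1 (ep i))‖ ^ 2| ≤
        4 * Fintype.card ι := by
    intro P Q hP hQ hcP hcQ n
    rw [abs_of_nonneg (Finset.sum_nonneg fun i _ => dsum_nonneg fun b j => by positivity)]
    have h1 := hle Set.univ P hP hcP n
    have h2 := hle Set.univ Q hQ hcQ n
    rw [abs_of_nonneg (Finset.sum_nonneg fun i _ => dsum_nonneg fun b j => by positivity)] at h1 h2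
    have h4 : ∑ i : ι, ∑ b ∈ B n, ∑ j ∈ J n,
        ‖wt q Set.univ P n b j (R 1 (ep i)) - wt q Set.univ Q n b j (R 1 (ep i))‖ ^ 2 ≤
        ∑ i : ι, ∑ b ∈ B n, ∑ j ∈ J n, (2 * ‖wt q Set.univ P n b j (R 1 (ep i))‖ ^ 2 +
          2 * ‖wt q Set.univ Q n b j (R 1 (ep i))‖ ^ 2) := by
      refine Finset.sum_le_sum fun i _ => dsum_mono fun b j => ?_
      have := sq_add_le (wt q Set.univ P n b j (R 1 (ep i))) (-wt q Set.univ Q n b j (R 1 (ep i)))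
      rwa [norm_neg, ← sub_eq_add_neg] at this
    have h5 : ∑ i : ι, ∑ b ∈ B n, ∑ j ∈ J n, (2 * ‖wt q Set.univ P n b j (R 1 (ep i))‖ ^ 2 +
          2 * ‖wt q Set.univ Q n b j (R 1 (ep i))‖ ^ 2) =
        2 * ∑ i : ι, ∑ b ∈ B n, ∑ j ∈ J n, ‖wt q Set.univ P n b j (R 1 (ep i))‖ ^ 2 +
        2 * ∑ i : ι, ∑ b ∈ B n, ∑ j ∈ J n, ‖wt q Set.univ Q n b j (R 1 (ep i))‖ ^ 2 := by
      simp only [Finset.sum_add_distrib, Finset.mul_sum]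
    linarith
  have hDs : ∀ (P Q : ℕ → Γ → κ → (Ell2 (Γ × ι) →L[ℂ] Ell2 (Γ × ι))), FamA B J P → FamA B J Q →
      CovA U B J P → CovA U B J Q → Tendsto (fun n => ∑ i : ι, ∑ b ∈ B n, ∑ j ∈ J n,
        ‖wt q Set.univ P n b j (R 1 (ep i)) - wt q Set.univ Q n b j (R 1 (ep i))‖ ^ 2) U
        (𝓝 (ul U (fun n => ∑ i : ι, ∑ b ∈ B n, ∑ j ∈ J n,
          ‖wt q Set.univ P n b j (R 1 (ep i)) - wt q Set.univ Q n b j (R 1 (ep i))‖ ^ 2))) :=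
    fun P Q hP hQ hcP hcQ => ul_spec U (hDle P Q hP hQ hcP hcQ)
  refine mean_of_convex K midA {P | FamA B J P ∧ CovA U B J P ∧ LowA R K U B J Y P c} ?_
    ⟨P0, hP0, hc0, h3⟩ (actA R) ?_ (NA R q U B J)
    (fun P Q => ul U (fun n => ∑ i : ι, ∑ b ∈ B n, ∑ j ∈ J n,
      ‖wt q Set.univ P n b j (R 1 (ep i)) - wt q Set.univ Q n b j (R 1 (ep i))‖ ^ 2))
    ?_ ?_ ?_ ?_ ?_ (c := c ^ 2 / (CY + 1)) (by positivity) ?_
  · rintro P ⟨p1, p2, p3⟩ Q ⟨q1, q2, q3⟩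
    exact ⟨p1.mid q1, p2.mid q2, p3.mid q3⟩
  · rintro u hu P ⟨p1, p2, p3⟩
    exact ⟨FamA.act hR p1 u, CovA.act hR p2 u, LowA.act hR p3 hYW u hu⟩
  · rintro A P ⟨p1, p2, p3⟩
    exact ge_of_tendsto (hNs A P p1 p2) (Eventually.of_forall fun n =>
      Finset.sum_nonneg fun i _ => dsum_nonneg fun b j => by positivity)
  · rintro A A' hAA P ⟨p1, p2, p3⟩
    refine ul_eq U (((hNs A P p1 p2).add (hNs A' P p1 p2)).congr fun n => ?_)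
    simp only [← Finset.sum_add_distrib]
    refine Finset.sum_congr rfl fun i _ => Finset.sum_congr rfl fun b _ =>
      Finset.sum_congr rfl fun j _ => ?_
    rw [wt_apply, wt_apply, wt_apply, hq.add A A' hAA]
  · rintro P ⟨p1, p2, p3⟩ Q ⟨q1, q2, q3⟩
    refine ul_eq U ?_
    have h1 := ((((hNs Set.univ P p1 p2).add (hNs Set.univ Q q1 q2)).div_const 2).sub
      ((hDs P Q p1 q1 p2 q2).div_const 4))
    refine h1.congr fun n => ?_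
    simp only [hwm, half_par, Finset.sum_sub_distrib, ← Finset.sum_div, Finset.sum_add_distrib]
  · rintro A P ⟨p1, p2, p3⟩ Q ⟨q1, q2, q3⟩
    have h1 := (Real.continuous_sqrt.tendsto _).comp (hNs A P p1 p2)
    have h2 := (Real.continuous_sqrt.tendsto _).comp (hNs A Q q1 q2)
    have h4 := (Real.continuous_sqrt.tendsto _).comp (hDs P Q p1 q1 p2 q2)
    refine le_of_tendsto_of_tendsto (h1.sub h2).abs h4 (Eventually.of_forall fun n => ?_)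
    refine (tsum_sqrt_sub_le (B n) (J n) (fun i b j => wt q A P n b j (R 1 (ep i)))
      (fun i b j => wt q A Q n b j (R 1 (ep i)))).trans (Real.sqrt_le_sqrt
        (Finset.sum_le_sum fun i _ => dsum_mono fun b j => ?_))
    have h5 : ‖wt q A P n b j (R 1 (ep i)) - wt q A Q n b j (R 1 (ep i))‖ ≤
        ‖wt q Set.univ P n b j (R 1 (ep i)) - wt q Set.univ Q n b j (R 1 (ep i))‖ := by
      rw [wt_apply, wt_apply, wt_apply, wt_apply, ← map_sub (q A), ← map_sub (q Set.univ), hq.univ]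
      exact hq.le hR A _
    gcongr
  · rintro A u hu P ⟨p1, p2, p3⟩
    exact NA_inv hR hq p1 p2 A u
  · rintro P ⟨p1, p2, p3⟩
    have h1 := p3 1 K.one_mem
    refine ge_of_tendsto (hNs Set.univ P p1 p2) ?_
    filter_upwards [h1] with n hn
    have e1 : ∑ b ∈ B n, ∑ j ∈ J n, ∑ i : ι, ⟪Y n b j (R 1 (ep i)), P n b j (R 1 (ep i))⟫_ℂ =
        ∑ b ∈ B n, ∑ j ∈ J n, ∑ i : ι, ⟪Y n b j (R 1 (ep i)), R 1 (P n b j (R 1 (ep i)))⟫_ℂ := by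
      refine Finset.sum_congr rfl fun b _ => Finset.sum_congr rfl fun j _ =>
        Finset.sum_congr rfl fun i _ => ?_
      rw [hR.inner_right 1 (Y n b j (R 1 (ep i))), inv_one]
      congr 1
      have e2 : R 1 (Y n b j (R 1 (ep i))) = Y n b j (R 1 (R 1 (ep i))) :=
        congrArg (fun T : Ell2 (Γ × ι) →L[ℂ] Ell2 (Γ × ι) => T (R 1 (ep i)))
          (hYW 1 K.one_mem n b j).symm
      rw [e2, hR.app, _root_.mul_one]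
    have h2 := hn.trans (Complex.re_le_norm _)
    rw [e1] at h2
    have h4 := h2.trans (tsum_inner_le (B n) (J n) (fun i b j => Y n b j (R 1 (ep i)))
      (fun i b j => R 1 (P n b j (R 1 (ep i)))))
    have e3 : ∑ i : ι, ∑ b ∈ B n, ∑ j ∈ J n, ‖R 1 (P n b j (R 1 (ep i)))‖ ^ 2 =
        ∑ i : ι, ∑ b ∈ B n, ∑ j ∈ J n, ‖wt q Set.univ P n b j (R 1 (ep i))‖ ^ 2 := by
      refine Finset.sum_congr rfl fun i _ => Finset.sum_congr rfl fun b _ =>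
        Finset.sum_congr rfl fun j _ => ?_
      rw [wt_apply, hq.univ, hR.lx, norm_lx]
    rw [e3] at h4
    obtain ⟨N, hN⟩ : ∃ N, N = ∑ i : ι, ∑ b ∈ B n, ∑ j ∈ J n,
      ‖wt q Set.univ P n b j (R 1 (ep i))‖ ^ 2 := ⟨_, rfl⟩
    have hN0 : 0 ≤ N := by
      rw [hN]; exact Finset.sum_nonneg fun i _ => dsum_nonneg fun b j => by positivity
    rw [← hN] at h4 ⊢
    have h5 : Real.sqrt (∑ i : ι, ∑ b ∈ B n, ∑ j ∈ J n, ‖Y n b j (R 1 (ep i))‖ ^ 2) ≤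
        Real.sqrt (CY + 1) := Real.sqrt_le_sqrt ((hY n).trans (by linarith))
    have h6 : c ≤ Real.sqrt (CY + 1) * Real.sqrt N :=
      h4.trans (mul_le_mul_of_nonneg_right h5 (Real.sqrt_nonneg _))
    rw [div_le_iff₀ (by positivity)]
    calc c ^ 2 ≤ (Real.sqrt (CY + 1) * Real.sqrt N) ^ 2 := by gcongr
      _ = N * (CY + 1) := by
        rw [mul_pow, Real.sq_sqrt (by positivity), Real.sq_sqrt hN0, mul_comm]

end q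

/-- The version for families with one index. -/
theorem mean_of_maps1 (hR : ARep t R) (hE : H538.EFam R E) (K : Subgroup Λ) (U : Ultrafilter ℕ)
    (B : ℕ → Finset Γ) (P0 Y : ℕ → Γ → (Ell2 (Γ × ι) →L[ℂ] Ell2 (Γ × ι)))
    (h0 : ∀ n b, b ∉ B n → P0 n b = 0) (h1 : ∀ n ξ, ∑ b ∈ B n, ‖P0 n b ξ‖ ^ 2 ≤ ‖ξ‖ ^ 2)
    (h2 : ∀ (s : Γ) (x : Γ × ι), Tendsto (fun n => ∑ b ∈ BB (B n) s,
      ‖P0 n (s * b) (dl x) - lx s (P0 n b (lx s⁻¹ (dl x)))‖ ^ 2) U (𝓝 0)) {CY : ℝ}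
    (hY : ∀ n, ∑ i : ι, ∑ b ∈ B n, ‖Y n b (R 1 (ep i))‖ ^ 2 ≤ CY)
    (hYW : ∀ u ∈ K, ∀ n b, Y n b * R u = R u * Y n b) {c : ℝ} (hc : 0 < c)
    (h3 : ∀ u ∈ K, ∀ᶠ n in U, c ≤ (∑ b ∈ B n, ∑ i : ι,
      ⟪Y n b (R u (ep i)), P0 n b (R u (ep i))⟫_ℂ).re) :
    ∃ m : Set Λ → ℝ, H200.IsInvMean K m := by
  have hF : FamA B (fun _ => (Finset.univ : Finset Unit)) (fun n b _ => P0 n b) :=
    ⟨fun n b _ hb => h0 n b hb, fun n ξ => by simpa using h1 n ξ⟩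
  refine mean_of_mapsA hR hE K U B (fun _ => (Finset.univ : Finset Unit)) (fun n b _ => P0 n b)
    (fun n b _ => Y n b) hF (covA_of_dl hF fun s x => ?_) (CY := CY) (fun n => ?_)
    (fun u hu n b _ => hYW u hu n b) hc (fun u hu => ?_)
  · simpa using h2 s x
  · simpa using hY n
  · filter_upwards [h3 u hu] with n hn
    simpa using hn

end

end Vale.Agent.P092.H432
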