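import Vale.Agent.P092.H432.Avg
import Vale.Agent.P092.H714.AsmA

/-!
P092 (helper432), stage (S), block [S7](a), in the form used by the assembly.
-/

set_option linter.all false

open scoped InnerProductSpace
open Filter Topology ContinuousLinearMap

namespace Vale.Agent.P092.H432

open Vale.Agent.P092.H160 Vale.Agent.P092.H553

theorem invTr {Γ Λ ι : Type} [Group Γ] [Group Λ] [Fintype ι] {t : ℝ}
    {R : Λ → (Ell2 (Γ × ι) →L[ℂ] Ell2 (Γ × ι))}
    (hΓ : ∀ g : Γ, g ≠ 1 → Set.Infinite {y | ∃ h, y = h * g * h⁻¹}) (hR : AFrame t R) :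
    H714.InvTr R := by
  classical
  obtain ⟨ν, h1, h2, h3⟩ := exists_nu hΓ hR
  refine ⟨fun T => ν T, fun S T => map_add ν S T, fun c T => ?_, h1, ?_, fun s T _ hTP hT => ?_⟩
  · have hr : (c : ℂ) • T = c • T := by
      ext ξ x
      change (c : ℂ) * (T ξ x) = c • (T ξ x)
      rw [Complex.real_smul]
    change ν ((c : ℂ) • T) = _
    rw [hr, map_smul, smul_eq_mul]
  · change 0 < ν (R 1)
    rw [h2]
    exact one_pos
  · have h4 := h3 T (fun v => (hT v).symm) hTP s⁻¹
    rw [inv_inv] at h4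
    exact h4

end Vale.Agent.P092.H432
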