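import Vale.Agent.P092.H432.Frame

/-!
P092 (helper432), stage (S), block [S1]: the trace of the right algebra on `ℓ²(Γ × ι)`, the shift
operators and the approximation in 2-norm.
-/

set_option linter.all false

open scoped InnerProductSpace
open Filter Topology ContinuousLinearMap

namespace Vale.Agent.P092.H432

open Vale.Agent.P092.H160 Vale.Agent.P092.H553

section ra

variable {Γ ι : Type} [Group Γ]

theorem RA.mul {S T : Ell2 (Γ × ι) →L[ℂ] Ell2 (Γ × ι)} (hS : RA S) (hT : RA T) : RA (S * T) :=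
  Cmm.mul hS hT

theorem RA.add {S T : Ell2 (Γ × ι) →L[ℂ] Ell2 (Γ × ι)} (hS : RA S) (hT : RA T) : RA (S + T) :=
  Cmm.add hS hT

theorem RA.sub {S T : Ell2 (Γ × ι) →L[ℂ] Ell2 (Γ × ι)} (hS : RA S) (hT : RA T) : RA (S - T) :=
  Cmm.sub hS hT

theorem RA.smul (c : ℂ) {T : Ell2 (Γ × ι) →L[ℂ] Ell2 (Γ × ι)} (hT : RA T) : RA (c • T) :=
  Cmm.smul c hT

theorem RA.one : RA (1 : Ell2 (Γ × ι) →L[ℂ] Ell2 (Γ × ι)) := Cmm.one

theorem RA.zero : RA (0 : Ell2 (Γ × ι) →L[ℂ] Ell2 (Γ × ι)) := fun g => by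
  rw [zero_mul, mul_zero]

theorem RA.sum {α : Type} (s : Finset α) {f : α → Ell2 (Γ × ι) →L[ℂ] Ell2 (Γ × ι)}
    (h : ∀ a ∈ s, RA (f a)) : RA (∑ a ∈ s, f a) := by
  classical
  induction s using Finset.induction_on with
  | empty => rw [Finset.sum_empty]; exact RA.zero
  | insert a s ha ih =>
    rw [Finset.sum_insert ha]
    exact (h a (Finset.mem_insert_self a s)).add (ih fun b hb => h b (Finset.mem_insert_of_mem hb))

end ra

section trace

variable {Γ ι : Type} [Group Γ] [Fintype ι]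

/-- The trace of the right algebra. -/
noncomputable def trA (T : Ell2 (Γ × ι) →L[ℂ] Ell2 (Γ × ι)) : ℂ :=
  ∑ i, ⟪(ep i : Ell2 (Γ × ι)), T (ep i)⟫_ℂ

/-- The square of the 2-norm. -/
noncomputable def nn (T : Ell2 (Γ × ι) →L[ℂ] Ell2 (Γ × ι)) : ℝ := ∑ i, ‖T (ep i)‖ ^ 2

theorem nn_nonneg (T : Ell2 (Γ × ι) →L[ℂ] Ell2 (Γ × ι)) : 0 ≤ nn T :=
  Finset.sum_nonneg fun i _ => by positivity

theorem norm_sq_le_nn (T : Ell2 (Γ × ι) →L[ℂ] Ell2 (Γ × ι)) (i : ι) : ‖T (ep i)‖ ^ 2 ≤ nn T :=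
  Finset.single_le_sum (f := fun i => ‖T (ep i)‖ ^ 2) (fun i _ => by positivity)
    (Finset.mem_univ i)

theorem norm_le_nn (T : Ell2 (Γ × ι) →L[ℂ] Ell2 (Γ × ι)) (i : ι) :
    ‖T (ep i)‖ ≤ Real.sqrt (nn T) := by
  rw [← Real.sqrt_sq (norm_nonneg (T (ep i)))]
  exact Real.sqrt_le_sqrt (norm_sq_le_nn T i)

theorem hasSum_trA {S T : Ell2 (Γ × ι) →L[ℂ] Ell2 (Γ × ι)} (hS : RA S) :
    HasSum (fun g : Γ => ∑ i, ∑ j, (T (ep i)) (g, j) * (S (ep j)) (g⁻¹, i)) (trA (S * T)) := by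
  refine hasSum_sum fun i _ => ?_
  have h := hasSum_inner' (adjoint S (ep i)) (T (ep i))
  rw [adjoint_inner_left] at h
  have h2 := HasSum.prod_fiberwise h fun g => hasSum_fintype _
  refine h2.congr_fun fun g => Finset.sum_congr rfl fun j _ => ?_
  rw [hS.coef, Complex.conj_conj]

/-- The trace property. -/
theorem trA_comm {S T : Ell2 (Γ × ι) →L[ℂ] Ell2 (Γ × ι)} (hS : RA S) (hT : RA T) :
    trA (S * T) = trA (T * S) := by
  have h1 := hasSum_trA (T := T) hS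
  have h2 := hasSum_trA (T := S) hT
  rw [← (Equiv.inv Γ).hasSum_iff] at h2
  refine h1.unique (h2.congr_fun fun g => ?_)
  rw [Function.comp_apply, Equiv.inv_apply, inv_inv, Finset.sum_comm]
  refine Finset.sum_congr rfl fun i _ => Finset.sum_congr rfl fun j _ => ?_
  rw [mul_comm]

theorem trA_add (S T : Ell2 (Γ × ι) →L[ℂ] Ell2 (Γ × ι)) : trA (S + T) = trA S + trA T := by
  rw [trA, trA, trA, ← Finset.sum_add_distrib]
  refine Finset.sum_congr rfl fun i _ => ?_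
  rw [add_apply, inner_add_right]

theorem trA_sub (S T : Ell2 (Γ × ι) →L[ℂ] Ell2 (Γ × ι)) : trA (S - T) = trA S - trA T := by
  rw [trA, trA, trA, ← Finset.sum_sub_distrib]
  refine Finset.sum_congr rfl fun i _ => ?_
  rw [sub_apply, inner_sub_right]

theorem trA_smul (c : ℂ) (T : Ell2 (Γ × ι) →L[ℂ] Ell2 (Γ × ι)) : trA (c • T) = c * trA T := by
  rw [trA, trA, Finset.mul_sum]
  refine Finset.sum_congr rfl fun i _ => ?_
  rw [smul_apply, inner_smul_right]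

theorem trA_star_mul (T : Ell2 (Γ × ι) →L[ℂ] Ell2 (Γ × ι)) : trA (adjoint T * T) = (nn T : ℂ) := by
  rw [trA, nn, Complex.ofReal_sum]
  refine Finset.sum_congr rfl fun i _ => ?_
  rw [mul_ap, adjoint_inner_right, inner_self_eq_norm_sq_to_K]
  norm_cast

theorem nn_adjoint {T : Ell2 (Γ × ι) →L[ℂ] Ell2 (Γ × ι)} (hT : RA T) : nn (adjoint T) = nn T := by
  have h := trA_comm (ra_adjoint hT) hT
  have h2 := trA_star_mul (adjoint T)
  rw [adjoint_adjoint] at h2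
  rw [trA_star_mul, h2] at h
  exact_mod_cast h.symm

theorem nn_mul_le_left (S T : Ell2 (Γ × ι) →L[ℂ] Ell2 (Γ × ι)) : nn (S * T) ≤ ‖S‖ ^ 2 * nn T := by
  rw [nn, nn, Finset.mul_sum]
  refine Finset.sum_le_sum fun i _ => ?_
  rw [mul_ap, ← mul_pow]
  have := S.le_opNorm (T (ep i))
  gcongr

theorem adjoint_mul (S T : Ell2 (Γ × ι) →L[ℂ] Ell2 (Γ × ι)) :
    adjoint (S * T) = adjoint T * adjoint S := by
  rw [← star_eq_adjoint, star_mul]; rfl

theorem nn_mul_le_right {S T : Ell2 (Γ × ι) →L[ℂ] Ell2 (Γ × ι)} (hS : RA S) (hT : RA T) :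
    nn (S * T) ≤ ‖T‖ ^ 2 * nn S := by
  rw [← nn_adjoint (hS.mul hT), adjoint_mul, ← nn_adjoint hS]
  refine (nn_mul_le_left _ _).trans ?_
  rw [LinearIsometryEquiv.norm_map]

theorem nn_eq_zero {T : Ell2 (Γ × ι) →L[ℂ] Ell2 (Γ × ι)} (hT : RA T) (h : nn T = 0) : T = 0 := by
  refine hT.ext RA.zero fun i => ?_
  have h1 := norm_sq_le_nn T i
  rw [h] at h1
  have h2 : ‖T (ep i)‖ ^ 2 = 0 := le_antisymm h1 (by positivity)
  have h3 : ‖T (ep i)‖ = 0 := by simpa using h2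
  rw [norm_eq_zero.mp h3, zero_apply]

/-- Separation of operators of the right algebra by the trace. -/
theorem RA.ext_tr {S T : Ell2 (Γ × ι) →L[ℂ] Ell2 (Γ × ι)} (hS : RA S) (hT : RA T)
    (h : trA (adjoint (S - T) * S) = trA (adjoint (S - T) * T)) : S = T := by
  have h1 : trA (adjoint (S - T) * (S - T)) = 0 := by
    rw [mul_sub, trA_sub, h, sub_self]
  rw [trA_star_mul] at h1
  have h2 : nn (S - T) = 0 := by exact_mod_cast h1
  exact sub_eq_zero.mp (nn_eq_zero (hS.sub hT) h2)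

end trace

/-! ### Shift operators -/

section shift

variable {Γ ι : Type} [Group Γ] [DecidableEq ι]

/-- `δ_(h,i) ↦ δ_(h g, j)` and `δ_(h,k) ↦ 0` for `k ≠ i`. -/
noncomputable def ex (i j : ι) (g : Γ) : Ell2 (Γ × ι) →L[ℂ] Ell2 (Γ × ι) :=
  rei ((Equiv.mulRight g).prodCongr (Equiv.swap i j)) * mo (fun x => if x.2 = i then 1 else 0)

theorem abs_ite_le (i : ι) (x : Γ × ι) : |(if x.2 = i then (1 : ℝ) else 0)| ≤ 1 := by
  split_ifs <;> simp

theorem ex_apply (i j : ι) (g : Γ) (ξ : Ell2 (Γ × ι)) (x : Γ × ι) :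
    ex i j g ξ x = if x.2 = j then ξ (x.1 * g⁻¹, i) else 0 := by
  rw [ex, mul_ap, rei_apply, mo_apply (abs_ite_le i)]
  have h1 : ((Equiv.mulRight g).prodCongr (Equiv.swap i j)).symm x =
      (x.1 * g⁻¹, Equiv.swap i j x.2) := by
    rfl
  rw [h1]
  by_cases h : x.2 = j
  · rw [if_pos h, h, Equiv.swap_apply_right, if_pos rfl]
    simp
  · rw [if_neg h, if_neg]
    · simp
    · intro h2
      change Equiv.swap i j x.2 = i at h2
      rw [Equiv.swap_apply_eq_iff, Equiv.swap_apply_left] at h2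
      exact h h2

theorem ex_ra (i j : ι) (g : Γ) : RA (ex i j g : Ell2 (Γ × ι) →L[ℂ] Ell2 (Γ × ι)) := by
  intro s
  ext ξ x
  rw [mul_ap, mul_ap, ex_apply, lxH_apply, lx_apply, lx_apply, ex_apply]
  simp only [mul_assoc]

theorem ex_ep_self (i j : ι) (g : Γ) : ex i j g (ep i : Ell2 (Γ × ι)) = dl (g, j) := by
  rw [ex, mul_ap]
  have h1 : mo (fun x : Γ × ι => if x.2 = i then (1 : ℝ) else 0) (ep i) = ep i := by
    ext x
    haveI : DecidableEq (Γ × ι) := Classical.decEq _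
    rw [mo_apply (abs_ite_le i), ep, dl_apply]
    by_cases hx : x = (1, i)
    · rw [if_pos (by rw [hx])]; simp
    · rw [if_neg hx, mul_zero]
  rw [h1, ep, rei_dl]
  congr 1
  change ((1 : Γ) * g, Equiv.swap i j i) = (g, j)
  rw [one_mul, Equiv.swap_apply_left]

theorem ex_ep_ne {i k : ι} (h : k ≠ i) (j : ι) (g : Γ) : ex i j g (ep k : Ell2 (Γ × ι)) = 0 := by
  rw [ex, mul_ap]
  have h1 : mo (fun x : Γ × ι => if x.2 = i then (1 : ℝ) else 0) (ep k) = 0 := by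
    ext x
    haveI : DecidableEq (Γ × ι) := Classical.decEq _
    rw [mo_apply (abs_ite_le i), ep, dl_apply]
    by_cases hx : x = (1, k)
    · rw [if_neg (by rw [hx]; exact h)]; simp
    · rw [if_neg hx, mul_zero]; rfl
  rw [h1, map_zero]

/-- Commutation of shifts with multiplication operators. -/
theorem mp_ex {F : Γ → ℝ} {C : ℝ} (hF : ∀ g, |F g| ≤ C) (i j : ι) (g : Γ) (ξ : Ell2 (Γ × ι)) :
    mp ι F (ex i j g ξ) = ex i j g (mp ι (fun h => F (h * g)) ξ) := by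
  ext x
  rw [mp, mo_apply (F := fun x : Γ × ι => F x.1) (fun x => hF _), ex_apply, ex_apply, mp,
    mo_apply (F := fun x : Γ × ι => F (x.1 * g)) (fun x => hF _)]
  by_cases h : x.2 = j
  · rw [if_pos h, if_pos h, inv_mul_cancel_right]
  · rw [if_neg h, if_neg h, mul_zero]

variable [Fintype ι]

/-- finite approximation of an operator of the right algebra -/
noncomputable def appr (T : Ell2 (Γ × ι) →L[ℂ] Ell2 (Γ × ι)) (A : Finset (Γ × ι)) :
    Ell2 (Γ × ι) →L[ℂ] Ell2 (Γ × ι) :=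
  ∑ i, ∑ x ∈ A, (T (ep i) : Ell2 (Γ × ι)) x • ex i x.2 x.1

theorem appr_ra (T : Ell2 (Γ × ι) →L[ℂ] Ell2 (Γ × ι)) (A : Finset (Γ × ι)) : RA (appr T A) :=
  RA.sum _ fun i _ => RA.sum _ fun x _ => (ex_ra i x.2 x.1).smul _

theorem appr_ep (T : Ell2 (Γ × ι) →L[ℂ] Ell2 (Γ × ι)) (A : Finset (Γ × ι)) (i : ι) :
    appr T A (ep i) = ∑ x ∈ A, (T (ep i) : Ell2 (Γ × ι)) x • dl x := by
  rw [appr, ContinuousLinearMap.sum_apply, Finset.sum_eq_single i]
  · rw [ContinuousLinearMap.sum_apply]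
    refine Finset.sum_congr rfl fun x _ => ?_
    rw [smul_apply, ex_ep_self]
  · intro k _ hk
    rw [ContinuousLinearMap.sum_apply]
    refine Finset.sum_eq_zero fun x _ => ?_
    rw [smul_apply, ex_ep_ne hk.symm, smul_zero]
  · intro h
    exact absurd (Finset.mem_univ i) h

theorem exists_appr (T : Ell2 (Γ × ι) →L[ℂ] Ell2 (Γ × ι)) {ε : ℝ} (hε : 0 < ε) :
    ∃ A : Finset (Γ × ι), nn (T - appr T A) ≤ ε := by
  have h1 : Tendsto (fun A : Finset (Γ × ι) => nn (T - appr T A)) atTop (𝓝 0) := by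
    have h2 : ∀ i : ι, Tendsto (fun A : Finset (Γ × ι) => ‖(T - appr T A) (ep i)‖ ^ 2) atTop
        (𝓝 0) := by
      intro i
      have h3 : Tendsto (fun A : Finset (Γ × ι) => ∑ x ∈ A, (T (ep i) : Ell2 (Γ × ι)) x • dl x) atTop
          (𝓝 (T (ep i))) := hasSum_dl (T (ep i))
      have h4 := ((tendsto_const_nhds (x := T (ep i))).sub h3).norm.pow 2
      rw [sub_self, norm_zero, zero_pow two_ne_zero] at h4
      refine h4.congr fun A => ?_
      rw [sub_apply, appr_ep]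
    have h5 := tendsto_finsetSum Finset.univ fun i _ => h2 i
    rw [Finset.sum_const_zero] at h5
    exact h5
  obtain ⟨A, hA⟩ := (h1.eventually (gt_mem_nhds hε)).exists
  exact ⟨A, hA.le⟩

end shift

end Vale.Agent.P092.H432
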